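import Crest.Agent.N334.Md.CauT
import Crest.Agent.N334.T.Defs
import Crest.Agent.N334.I.Mix

/-!
# Row 334 (helper14): site laws for the engine `T`

* `law0_of_bdd`, `law0_dens`: compactly supported laws with bounded density of the real part.
* `tcd c τ l`: Cauchy density of width `τ`, cut at `l² τ`; `law_tc`: it is a `Law` with `κ = 10 / l`.
-/

set_option autoImplicit false

open MeasureTheory Complex Set
open scoped ENNReal

namespace Crest.Agent.N334.Md

open T I

/-- the point `a - E - i g` -/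
noncomputable def sh (E g a : ℝ) : ℂ := ((a - E : ℝ) : ℂ) - g * Complex.I

/-- law of `a - E - i g`, `a ∼ ν` -/
noncomputable def tl (E g : ℝ) (ν : Measure ℝ) : Measure ℂ := ν.map (sh E g)

@[simp] theorem sh_re (E g a : ℝ) : (sh E g a).re = a - E := by simp [sh]
@[simp] theorem sh_im (E g a : ℝ) : (sh E g a).im = -g := by simp [sh]
@[fun_prop] theorem measurable_sh (E g : ℝ) : Measurable (sh E g) := by unfold sh; fun_prop

theorem cl_sh (E : ℝ) {g : ℝ} (hg : 0 ≤ g) (a : ℝ) : cl (sh E g a) = sh E g a := by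
  apply Complex.ext <;> simp [cl, abs_of_nonneg hg]

theorem measurable_cl' : Measurable cl := by
  have : cl = fun z : ℂ => (z.re : ℂ) + ((-|z.im| : ℝ) : ℂ) * Complex.I := by
    funext z; apply Complex.ext <;> simp [cl]
  rw [this]; fun_prop

instance (E g : ℝ) (ν : Measure ℝ) [IsProbabilityMeasure ν] : IsProbabilityMeasure (tl E g ν) :=
  Measure.isProbabilityMeasure_map (measurable_sh E g).aemeasurable

theorem tl_mono (E g : ℝ) {ν ν' : Measure ℝ} (h : ν ≤ ν') : tl E g ν ≤ tl E g ν' :=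
  Measure.map_mono h (measurable_sh E g)

theorem tl_smul (E g : ℝ) (c : ℝ≥0∞) (ν : Measure ℝ) : tl E g (c • ν) = c • tl E g ν :=
  Measure.map_smul _ _ _

theorem tl_restrict (E g c l : ℝ) :
    tl E g (volume.restrict (Icc (c - l) (c + l))) = seg (c - E) l g := by
  have h := (measurePreserving_sub_right volume E).restrict_preimage
    (s := Icc (c - E - l) (c - E + l)) measurableSet_Icc
  have e : (fun a => a - E) ⁻¹' Icc (c - E - l) (c - E + l) = Icc (c - l) (c + l) := by
    ext a; simp only [mem_preimage, mem_Icc]; constructor <;> rintro ⟨h1, h2⟩ <;> constructor <;>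
      linarith
  rw [e] at h
  rw [seg, ← h.map_eq, Measure.map_map (by fun_prop) (by fun_prop)]
  rfl

theorem law0_of_bdd {μ : Measure ℂ} [IsProbabilityMeasure μ] {r : ℂ} {Λ T D : ℝ}
    (hT : ∀ᵐ z ∂μ, ‖cl z - cl r‖ ≤ T)
    (hD : ∀ a l : ℝ, 0 ≤ l → μ {z | |z.re - a| ≤ l} ≤ ENNReal.ofReal (D * l))
    (h1 : 100 ≤ Λ) (h2 : Λ⁻¹ ≤ |r.im|) (h3 : ‖r‖ ≤ Λ) (h4 : (1 + T ^ 2) * D ≤ Λ) (h5 : T ≤ Λ) :
    Law0 μ r Λ where
  prob := inferInstance
  big := h1
  sig := h2
  nr := h3
  u2 a l hl := by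
    calc _ ≤ ∫⁻ _ in {z : ℂ | |z.re - a| ≤ l}, ENNReal.ofReal (1 + T ^ 2) ∂μ := by
          refine lintegral_mono_ae ?_
          filter_upwards [ae_restrict_of_ae hT] with z hz
          exact ENNReal.ofReal_le_ofReal (by gcongr)
      _ ≤ ENNReal.ofReal (1 + T ^ 2) * ENNReal.ofReal (D * l) := by
          rw [setLIntegral_const]; gcongr; exact hD a l hl
      _ ≤ _ := by
          rw [← ENNReal.ofReal_mul (by positivity), ← mul_assoc]
          exact ENNReal.ofReal_le_ofReal (mul_le_mul_of_nonneg_right h4 hl)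
  u3 s hs := by
    by_cases h : T ≤ s
    · rw [measure_mono_null (t := {z | ¬‖cl z - cl r‖ ≤ T}) (fun z hz => by
        simp only [mem_setOf_eq, not_le] at hz ⊢; linarith) (ae_iff.1 hT)]
      exact zero_le
    · refine prob_le_one.trans ?_
      rw [← ENNReal.ofReal_one]
      exact ENNReal.ofReal_le_ofReal ((one_le_div hs).2 (by linarith))

theorem dens_le_vol {f : ℝ → ℝ} {D : ℝ} (h : ∀ a, f a ≤ D) :
    dens f ≤ ENNReal.ofReal D • (volume : Measure ℝ) := by
  refine (dens_mono h).trans (le_of_eq ?_)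
  rw [dens, withDensity_const]

theorem dens_le_restrict {f : ℝ → ℝ} {D c l : ℝ} (h : ∀ a, f a ≤ D)
    (h' : ∀ a, 0 < f a → |a - c| ≤ l) :
    dens f ≤ ENNReal.ofReal D • volume.restrict (Icc (c - l) (c + l)) := by
  rw [← withDensity_const, ← withDensity_indicator measurableSet_Icc]
  refine withDensity_mono (ae_of_all _ fun a => ?_)
  by_cases ha : a ∈ Icc (c - l) (c + l)
  · rw [indicator_of_mem ha]; exact ENNReal.ofReal_le_ofReal (h a)
  · rw [indicator_of_notMem ha]
    refine le_of_eq (ENNReal.ofReal_eq_zero.2 (not_lt.1 fun h0 => ha ?_))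
    have := abs_le.1 (h' a h0)
    constructor <;> linarith

theorem restrict_le_dens {f : ℝ → ℝ} {D c l : ℝ} (h : ∀ a, |a - c| ≤ l → D ≤ f a) :
    ENNReal.ofReal D • volume.restrict (Icc (c - l) (c + l)) ≤ dens f := by
  rw [← withDensity_const, ← withDensity_indicator measurableSet_Icc]
  refine withDensity_mono (ae_of_all _ fun a => ?_)
  by_cases ha : a ∈ Icc (c - l) (c + l)
  · rw [indicator_of_mem ha]
    exact ENNReal.ofReal_le_ofReal (h a (abs_le.2 ⟨by linarith [ha.1], by linarith [ha.2]⟩))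
  · rw [indicator_of_notMem ha]; exact zero_le

theorem norm_sh_sub (E g σ a c : ℝ) : ‖sh E g a - sh E σ c‖ ≤ |a - c| + |g - σ| := by
  have := Complex.norm_le_abs_re_add_abs_im (sh E g a - sh E σ c)
  simp only [sub_re, sh_re, sub_im, sh_im] at this
  rwa [show a - E - (c - E) = a - c by ring, show -g - -σ = -(g - σ) by ring, abs_neg] at this

theorem tl_small {ν : Measure ℝ} {D : ℝ} (hD0 : 0 ≤ D) (hD : ν ≤ ENNReal.ofReal D • volume)
    (E g a l : ℝ) : tl E g ν {z | |z.re - a| ≤ l} ≤ ENNReal.ofReal (2 * D * l) := by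
  rw [tl, Measure.map_apply (measurable_sh E g) (measurableSet_le (by fun_prop) measurable_const)]
  have e : sh E g ⁻¹' {z | |z.re - a| ≤ l} = Icc (a + E - l) (a + E + l) := by
    ext x; simp only [mem_preimage, mem_setOf_eq, sh_re, mem_Icc, abs_le]
    constructor <;> rintro ⟨h1, h2⟩ <;> constructor <;> linarith
  rw [e]
  refine (hD _).trans (le_of_eq ?_)
  rw [Measure.smul_apply, Real.volume_Icc, smul_eq_mul, ← ENNReal.ofReal_mul hD0]
  congr 1; ring

/-- a compactly supported law with bounded density -/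
theorem law0_tl {ν : Measure ℝ} [IsProbabilityMeasure ν] {D c b E g σ T Λ : ℝ} (hD0 : 0 ≤ D)
    (hD : ν ≤ ENNReal.ofReal D • volume) (hb : ∀ᵐ a ∂ν, |a - c| ≤ b) (hg : 0 ≤ g) (hσ : 0 ≤ σ)
    (hT : b + |g - σ| ≤ T) (h1 : 100 ≤ Λ) (h2 : Λ⁻¹ ≤ σ) (h3 : |c - E| + σ ≤ Λ)
    (h4 : (1 + T ^ 2) * (2 * D) ≤ Λ) (h5 : T ≤ Λ) : Law0 (tl E g ν) (sh E σ c) Λ := by
  refine law0_of_bdd (T := T) (D := 2 * D) ?_ (fun a l _ => tl_small hD0 hD E g a l) h1
    (by simpa [abs_of_nonneg hσ] using h2) ?_ h4 h5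
  · refine (ae_map_iff (measurable_sh E g).aemeasurable
      (measurableSet_le (measurable_cl'.sub_const _).norm measurable_const)).2 ?_
    filter_upwards [hb] with a ha
    rw [cl_sh E hg, cl_sh E hσ]
    linarith [norm_sh_sub E g σ a c]
  · have := Complex.norm_le_abs_re_add_abs_im (sh E σ c)
    simp only [sh_re, sh_im, abs_neg, abs_of_nonneg hσ] at this
    linarith

/-! ### the truncated Cauchy law -/

/-- mass of the window -/
noncomputable def Zc (l : ℝ) : ℝ := ∫ x in {x : ℝ | |x| ≤ l ^ 2}, cau x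

/-- Cauchy density with centre `c` and width `τ`, cut at distance `l² τ` -/
noncomputable def tcd (c τ l a : ℝ) : ℝ :=
  {x : ℝ | |x| ≤ l ^ 2}.indicator cau ((a - c) / τ) / (τ * Zc l)

theorem measurableSet_win (L : ℝ) : MeasurableSet {x : ℝ | |x| ≤ L} :=
  measurableSet_le (by fun_prop) measurable_const

theorem Zc_le (l : ℝ) : Zc l ≤ 1 := by
  rw [← integral_cau]
  exact setIntegral_le_integral integrable_cau (ae_of_all _ fun x => (cau_pos x).le)

theorem le_Zc {l : ℝ} (hl : 8 ≤ l) : 1 / 2 ≤ Zc l := by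
  have h1 := integral_add_compl (measurableSet_tail (l ^ 2)) integrable_cau
  rw [compl_tail, integral_cau] at h1
  have h2 := tail_mass (l := l) (by linarith)
  have h3 : 4 / l ≤ 1 / 2 := by rw [div_le_iff₀ (by linarith)]; linarith
  unfold Zc; linarith

theorem measurable_tcd (c τ l : ℝ) : Measurable (tcd c τ l) :=
  ((continuous_cau.measurable.indicator (measurableSet_win _)).comp (by fun_prop)).div_const _

variable {c τ l : ℝ}

theorem tcd_nonneg (hτ : 0 < τ) (hl : 8 ≤ l) (a : ℝ) : 0 ≤ tcd c τ l a :=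
  div_nonneg (indicator_nonneg (fun x _ => (cau_pos x).le) _)
    (mul_nonneg hτ.le (by linarith [le_Zc hl]))

theorem tcd_le (hτ : 0 < τ) (hl : 8 ≤ l) (a : ℝ) : tcd c τ l a ≤ τ⁻¹ := by
  have h1 := le_Zc hl
  have h2 : {x : ℝ | |x| ≤ l ^ 2}.indicator cau ((a - c) / τ) ≤ 1 / 2 := by
    refine indicator_le' (g := fun _ => 1 / 2) (fun x _ => ?_) (fun x _ => by norm_num) _
    unfold cau
    rw [inv_eq_one_div]
    exact one_div_le_one_div_of_le two_pos (by nlinarith [Real.pi_gt_three, sq_nonneg x])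
  rw [tcd, div_le_iff₀ (by positivity), ← mul_assoc, inv_mul_cancel₀ hτ.ne']
  linarith

theorem tcd_supp (hτ : 0 < τ) {a : ℝ} (h : 0 < tcd c τ l a) : |a - c| ≤ l ^ 2 * τ := by
  by_contra hc
  rw [tcd, indicator_of_notMem, zero_div] at h
  · exact lt_irrefl _ h
  · simp only [mem_setOf_eq, abs_div, abs_of_pos hτ, div_le_iff₀ hτ]; exact hc

theorem le_tcd (hτ : 0 < τ) (hl : 8 ≤ l) {a : ℝ} (h : |a - c| ≤ l ^ 2 * τ) :
    (5 * l ^ 4 * τ)⁻¹ ≤ tcd c τ l a := by
  have h1 := le_Zc hl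
  have h2 := Zc_le l
  have hm : |(a - c) / τ| ≤ l ^ 2 := by rw [abs_div, abs_of_pos hτ, div_le_iff₀ hτ]; exact h
  have hl0 : 0 < l := by linarith
  rw [tcd, indicator_of_mem (by exact hm), le_div_iff₀ (by positivity)]
  have h3 : ((a - c) / τ) ^ 2 ≤ l ^ 4 := by
    rw [← sq_abs]; nlinarith [abs_nonneg ((a - c) / τ)]
  have h4 : (5 * l ^ 4)⁻¹ ≤ cau ((a - c) / τ) := by
    refine inv_anti₀ (by positivity) ?_
    have : 8 ^ 4 ≤ l ^ 4 := pow_le_pow_left₀ (by norm_num) hl 4
    nlinarith [Real.pi_le_four, Real.pi_pos]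
  have h5 : (5 * l ^ 4 * τ)⁻¹ * (τ * Zc l) = (5 * l ^ 4)⁻¹ * Zc l := by field_simp
  rw [h5]
  exact (mul_le_of_le_one_right (by positivity) h2).trans h4

theorem integral_tcd_mul (hτ : 0 < τ) (F : ℝ → ℝ) : ∫ a, tcd c τ l a * F a =
    (Zc l)⁻¹ * ∫ x in {x : ℝ | |x| ≤ l ^ 2}, cau x * F (c + τ * x) := by
  set H : ℝ → ℝ := fun x => {x : ℝ | |x| ≤ l ^ 2}.indicator (fun x => cau x * F (c + τ * x)) x
  have e : ∀ a, tcd c τ l a * F a = (τ * Zc l)⁻¹ * H ((a - c) / τ) := fun a => by
    simp only [H, tcd, indicator]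
    split_ifs
    · rw [mul_div_cancel₀ _ hτ.ne', add_sub_cancel]; ring
    · simp
  simp_rw [e]
  rw [integral_const_mul, integral_sub_right_eq_self (fun a => H (a / τ)) c,
    Measure.integral_comp_div, integral_indicator (measurableSet_win _), abs_of_pos hτ, smul_eq_mul]
  field_simp

theorem lintegral_tcd (hτ : 0 < τ) (hl : 8 ≤ l) : ∫⁻ a, ENNReal.ofReal (tcd c τ l a) = 1 := by
  have h1 := integral_tcd_mul (c := c) (l := l) hτ fun _ => 1
  simp only [mul_one] at h1
  have h2 : ∫ a, tcd c τ l a = 1 := by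
    rw [h1]; exact inv_mul_cancel₀ (by linarith [le_Zc hl] : 0 < Zc l).ne'
  rw [← ofReal_integral_eq_lintegral_ofReal (Integrable.of_integral_ne_zero (by rw [h2]; simp))
    (ae_of_all _ (tcd_nonneg hτ hl)), h2, ENNReal.ofReal_one]

theorem isProb_tc (hτ : 0 < τ) (hl : 8 ≤ l) : IsProbabilityMeasure (dens (tcd c τ l)) :=
  isProb_dens (lintegral_tcd hτ hl)

theorem integral_tc (hτ : 0 < τ) (hl : 8 ≤ l) (E g : ℝ) {F : ℂ → ℝ} (hF : Measurable F) :
    ∫ z, F z ∂tl E g (dens (tcd c τ l)) =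
      (Zc l)⁻¹ * ∫ x in {x : ℝ | |x| ≤ l ^ 2}, cau x * F (sh E g (c + τ * x)) := by
  rw [tl, integral_map (measurable_sh E g).aemeasurable hF.aestronglyMeasurable, dens,
    integral_withDensity_eq_integral_toReal_smul (measurable_tcd c τ l).ennreal_ofReal
      (ae_of_all _ fun _ => ENNReal.ofReal_lt_top),
    ← integral_tcd_mul hτ fun a => F (sh E g a)]
  refine integral_congr_ae (ae_of_all _ fun a => ?_)
  simp only [ENNReal.toReal_ofReal (tcd_nonneg hτ hl a), smul_eq_mul]

theorem law0_tc (hτ : 0 < τ) (hl : 8 ≤ l) {E g Λ : ℝ} (hg : 0 ≤ g) (hw : l ^ 2 * τ ≤ 1)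
    (h1 : 100 ≤ Λ) (h2 : 10 / τ ≤ Λ) (h3 : |c - E| + (g + τ) ≤ Λ) :
    Law0 (tl E g (dens (tcd c τ l))) (sh E (g + τ) c) Λ := by
  have := isProb_tc (c := c) hτ hl
  have hτ1 : τ ≤ 1 := by nlinarith
  refine law0_tl (D := τ⁻¹) (b := l ^ 2 * τ) (T := 2) (by positivity)
    (dens_le_vol (tcd_le hτ hl)) (ae_dens (measurable_tcd c τ l) fun a => tcd_supp hτ) hg
    (by linarith) ?_ h1 ?_ h3 ?_ (by linarith)
  · rw [show g - (g + τ) = -τ by ring, abs_neg, abs_of_pos hτ]; linarith
  · rw [inv_le_comm₀ (by linarith) (by linarith)]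
    refine le_trans (inv_anti₀ hτ (by linarith)) (le_trans ?_ h2)
    rw [div_eq_mul_inv]; nlinarith [inv_pos.2 hτ]
  · rw [div_eq_mul_inv] at h2; linarith

/-- the truncated Cauchy law is almost a harmonic measure -/
theorem law_tc (hτ : 0 < τ) (hl : 8 ≤ l) {E g Λ : ℝ} (hg : 0 ≤ g) (hw : l ^ 2 * τ ≤ 1)
    (h1 : 100 ≤ Λ) (h2 : 10 / τ ≤ Λ) (h3 : |c - E| + (g + τ) ≤ Λ) :
    Law (tl E g (dens (tcd c τ l))) (sh E (g + τ) c) Λ (10 / l) where
  toLaw0 := law0_tc hτ hl hg hw h1 h2 h3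
  la b := by
    have hZ := le_Zc hl
    have hl0 : 0 < l := by linarith
    rw [integral_tc hτ hl E g (F := fun z => Real.log ‖1 + (cl z - cl (sh E (g + τ) c)) * b‖)
      (Real.measurable_log.comp (((measurable_cl'.sub_const _).mul_const _).const_add _).norm)]
    have e : ∀ x : ℝ, 1 + (cl (sh E g (c + τ * x)) - cl (sh E (g + τ) c)) * b =
        (1 + Complex.I * (τ * b)) + τ * b * x := fun x => by
      rw [cl_sh E hg, cl_sh E (by linarith)]; unfold sh; push_cast; ring
    simp only [e]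
    have hne : 1 + Complex.I * (τ * b) ≠ 0 ∨ τ * b ≠ 0 := by
      by_cases h : (τ : ℂ) * b = 0
      · left; rw [h]; simp
      · exact Or.inr h
    have h4 := win_log_ge (l := l) (by linarith) hne
    set N := max ‖1 + Complex.I * (τ * b) + Complex.I * (τ * b)‖
      ‖1 + Complex.I * (τ * b) - Complex.I * (τ * b)‖ with hN
    have hN1 : 0 ≤ Real.log N := Real.log_nonneg (by rw [hN]; simp)
    simp_rw [mul_sub] at h4
    rw [integral_sub (cau_log hne).1.integrableOn (integrable_cau.mul_const _).integrableOn,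
      integral_mul_const] at h4
    have h5 : 0 ≤ Zc l * Real.log N := by positivity
    rw [← div_eq_inv_mul, le_div_iff₀ (by linarith)]
    have h6 : 4 / l ≤ 10 / l * Zc l := by
      have : 0 < l⁻¹ := inv_pos.2 hl0
      rw [div_eq_mul_inv, div_eq_mul_inv]; nlinarith
    unfold Zc at h5 h6 ⊢
    linarith
  lb m hm := by
    have hZ := le_Zc hl
    have hl0 : 0 < l := by linarith
    have hτ' : (τ : ℂ) ≠ 0 := by exact_mod_cast hτ.ne'
    rw [integral_tc hτ hl E g (F := fun z => Real.log ‖(cl z - m) / (cl (sh E (g + τ) c) - m)‖)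
      (Real.measurable_log.comp ((measurable_cl'.sub_const _).div_const _).norm)]
    set m' : ℂ := (m - sh E g c) / τ with hm'
    have him : 0 < m'.im := by
      rw [hm', Complex.div_ofReal_im]; simp only [sub_im, sh_im]
      exact div_pos (by linarith) hτ
    have e : ∀ x : ℝ, Real.log ‖(cl (sh E g (c + τ * x)) - m) / (cl (sh E (g + τ) c) - m)‖ =
        Real.log ‖-m' + 1 * x‖ - Real.log ‖m' + Complex.I‖ := fun x => by
      have e1 : cl (sh E g (c + τ * x)) - m = τ * (-m' + 1 * x) := by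
        rw [cl_sh E hg, hm']; unfold sh; push_cast; field_simp; ring
      have e2 : cl (sh E (g + τ) c) - m = τ * -(m' + Complex.I) := by
        rw [cl_sh E (by linarith), hm']; unfold sh; push_cast; field_simp; ring
      have n1 : -m' + 1 * x ≠ 0 := fun h => by
        have := congrArg Complex.im h; simp at this; linarith
      have n2 : m' + Complex.I ≠ 0 := fun h => by
        have := congrArg Complex.im h; simp at this; linarith
      rw [e1, e2, mul_div_mul_left _ _ hτ', norm_div, norm_neg,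
        Real.log_div (norm_ne_zero_iff.2 n1) (norm_ne_zero_iff.2 n2)]
    simp only [e]
    have h4 := win_log_le (l := l) (by linarith) him.le
    rw [← div_eq_inv_mul, div_le_iff₀ (by linarith)]
    have h6 : 5 / l ≤ 10 / l * Zc l := by
      have : 0 < l⁻¹ := inv_pos.2 hl0
      rw [div_eq_mul_inv, div_eq_mul_inv]; nlinarith
    linarith
  kle := by
    have h4 : 10 / l ≤ 2 := by rw [div_le_iff₀ (by linarith)]; linarith
    have h5 : 1 ≤ Real.log Λ := by
      rw [Real.le_log_iff_exp_le (by linarith)]; linarith [Real.exp_one_lt_d9]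
    linarith

theorem le_of_win {h : ℝ} (hτ : 0 < τ) (hl : 8 ≤ l) (hh : |c| + l ^ 2 * τ ≤ h) : τ ≤ h := by
  have : 1 ≤ l ^ 2 := by nlinarith
  nlinarith [abs_nonneg c]

/-- the label datum whose window law is the truncated Cauchy law -/
noncomputable def tcSite {h : ℝ} (hτ : 0 < τ) (hl : 8 ≤ l) (hh : |c| + l ^ 2 * τ ≤ h) :
    Site h where
  z := τ / (4 * h)
  wd := tcd c τ l
  meas := measurable_tcd c τ l
  nonneg := tcd_nonneg hτ hl
  mass := lintegral_tcd hτ hl
  z_nonneg := by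
    have : 0 < h := hτ.trans_le (le_of_win hτ hl hh)
    positivity
  z_le := by
    have : τ ≤ h := le_of_win hτ hl hh
    rw [div_le_iff₀ (by linarith)]; linarith
  le a := by
    have h0 : 0 < h := hτ.trans_le (le_of_win hτ hl hh)
    rcases (tcd_nonneg (c := c) hτ hl a).eq_or_lt with e | e
    · rw [← e, mul_zero]; exact div_nonneg (ud_nonneg h0 a) two_pos.le
    · have e1 := tcd_supp hτ e
      have e2 : |a| ≤ h := by
        have := abs_add_le (a - c) c
        rw [sub_add_cancel] at this; linarith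
      rw [ud, if_pos e2]
      refine (mul_le_mul_of_nonneg_left (tcd_le hτ hl a) (by positivity)).trans (le_of_eq ?_)
      field_simp; norm_num

end Crest.Agent.N334.Md
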