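import Crest.Agent.N334.Md.Env

/-!
# Row 334 (helper14): the concrete environments on the torus, part 2

`Sys`: geometry, two classes of blocks and the ledger constants `D, A, k`.  `Sys.lab`: the labels.
`Sys.Fam l μ`: window sites carry the truncated Cauchy laws, all other sites regular laws (`Reg`).
`Sys.env`: the environment; `Sys.home`: the same with the auxiliary law at a centre.
The badness is `Λ x = exp (A + 2 k dep x)` with the `1`-Lipschitz depth `dep`.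
-/

set_option autoImplicit false

open Finset MeasureTheory Function
open scoped ENNReal

namespace Crest.Agent.N334.Md

open I

/-- all the data of the construction at one energy -/
structure Sys where
  g : Geo
  p₁ : Par
  p₂ : Par
  h : ℝ
  En : ℝ
  D : ℝ
  A : ℝ
  k : ℝ
  hr₁ : g.r₁ = p₁.R + 1
  hr₂ : g.r₂ = p₂.R + 1
  L₁ : Led p₁ h En D A k
  L₂ : Led p₂ h En D A k
  hD : h⁻¹ ≤ D
  hA : (1 + (2 * h + 1) ^ 2) * (2 * D) + (|En| + 2 * h + 100) ≤ Real.exp A

namespace Sys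

variable (S : Sys)

theorem h_pos : 0 < S.h := S.L₁.h_pos

/-- parameters of the block of `x` (class 2 if `x` is in no block) -/
def pa (x : Tor S.g.M) : Par := if S.g.blk₁ x then S.p₁ else S.p₂

/-- centre of the block of `x` -/
def ce (x : Tor S.g.M) : Tor S.g.M := if S.g.blk₁ x then S.g.c₁ x else S.g.c₂ x

/-- depth inside the blocks -/
def dep (x : Tor S.g.M) : ℕ := (S.pa x).R - d1 x (S.ce x)

/-- window sites -/
def W (l : Tor S.g.M → Bool) (x : Tor S.g.M) : Prop :=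
  d1 x (S.ce x) ≤ (S.pa x).R + 1 ∧ S.ce x ≠ x ∧ l x = true

instance (l : Tor S.g.M → Bool) (x : Tor S.g.M) : Decidable (S.W l x) :=
  inferInstanceAs (Decidable (_ ∧ _))

/-- the labels -/
noncomputable def lab : Lab (Tor S.g.M) S.h := S.g.lab S.h_pos S.L₁.site S.L₂.site

theorem led (x : Tor S.g.M) : Led (S.pa x) S.h S.En S.D S.A S.k := by
  unfold pa; split_ifs; exacts [S.L₁, S.L₂]

variable {S}

theorem pa_blk₁ {x : Tor S.g.M} (hx : S.g.blk₁ x) : S.pa x = S.p₁ := if_pos hx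
theorem ce_blk₁ {x : Tor S.g.M} (hx : S.g.blk₁ x) : S.ce x = S.g.c₁ x := if_pos hx
theorem pa_not {x : Tor S.g.M} (hx : ¬S.g.blk₁ x) : S.pa x = S.p₂ := if_neg hx
theorem ce_not {x : Tor S.g.M} (hx : ¬S.g.blk₁ x) : S.ce x = S.g.c₂ x := if_neg hx

theorem in_iff {x : Tor S.g.M} :
    d1 x (S.ce x) ≤ (S.pa x).R + 1 ↔ S.g.blk₁ x ∨ S.g.blk₂ x := by
  by_cases h : S.g.blk₁ x
  · rw [pa_blk₁ h, ce_blk₁ h, ← S.hr₁]; exact iff_of_true h.2 (Or.inl h)
  · rw [pa_not h, ce_not h, ← S.hr₂, or_iff_right h]; rfl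

/-- centres -/
theorem ce_eq_iff {y : Tor S.g.M} : S.ce y = y ↔ S.g.ctr₁ y ∨ S.g.ctr₂ y := by
  by_cases h : S.g.blk₁ y
  · rw [ce_blk₁ h]
    exact ⟨fun e => Or.inl ⟨h.1, e⟩, fun e => e.elim (·.2) fun e => absurd h e.blk₂.not_blk₁⟩
  · rw [ce_not h]
    exact ⟨Or.inr, fun e => e.elim (fun e => absurd e.blk₁ h) id⟩

theorem pa_ctr₁ {y : Tor S.g.M} (hy : S.g.ctr₁ y) : S.pa y = S.p₁ := pa_blk₁ hy.blk₁
theorem pa_ctr₂ {y : Tor S.g.M} (hy : S.g.ctr₂ y) : S.pa y = S.p₂ := pa_not hy.blk₂.not_blk₁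

/-- the block of a centre -/
theorem of_ball {x y : Tor S.g.M} (hy : S.ce y = y) (hx : d1 x y ≤ (S.pa y).R + 1) :
    S.ce x = y ∧ S.pa x = S.pa y := by
  rcases ce_eq_iff.1 hy with h | h
  · rw [pa_ctr₁ h, ← S.hr₁, ← mem_ball, h.mem_ball] at hx
    exact ⟨(ce_blk₁ hx.1).trans hx.2, (pa_blk₁ hx.1).trans (pa_ctr₁ h).symm⟩
  · rw [pa_ctr₂ h, ← S.hr₂, ← mem_ball, h.mem_ball] at hx
    exact ⟨(ce_not hx.1.not_blk₁).trans hx.2, (pa_not hx.1.not_blk₁).trans (pa_ctr₂ h).symm⟩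

theorem two_mul_lt (x : Tor S.g.M) : 2 * ((S.pa x).R + 2) < S.g.M := by
  have := S.g.four_b_le; have := S.g.a_le_b; have := S.g.le₁; have := S.g.le₂
  have := S.hr₁; have := S.hr₂
  unfold pa; split_ifs <;> omega

theorem act_ctr {l : Tor S.g.M → Bool} {y : Tor S.g.M} (hy : S.ce y = y) :
    S.lab.act l y ↔ ∀ x ∈ ball y ((S.pa y).R + 1), l x = true := by
  rcases ce_eq_iff.1 hy with h | h
  · rw [pa_ctr₁ h, ← S.hr₁]; exact Geo.act_ctr₁ _ _ _ l h
  · rw [pa_ctr₂ h, ← S.hr₂]; exact Geo.act_ctr₂ _ _ _ l h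

theorem site_in {x : Tor S.g.M} (hx : d1 x (S.ce x) ≤ (S.pa x).R + 1) :
    S.lab.site x = (S.led x).site (off (S.ce x) x) := by
  have key : ∀ (p : Par) (L : Led p S.h S.En S.D S.A S.k) (c : Tor S.g.M), S.pa x = p → S.ce x = c →
      L.site (off c x) = (S.led x).site (off (S.ce x) x) := by
    rintro p L c rfl rfl; rfl
  rcases in_iff.1 hx with h | h
  · exact (Geo.site_blk₁ _ _ _ h).trans (key _ _ _ (pa_blk₁ h) (ce_blk₁ h))
  · exact (Geo.site_blk₂ _ _ _ h).trans (key _ _ _ (pa_not h.not_blk₁) (ce_not h.not_blk₁))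

theorem W.not_act {l : Tor S.g.M → Bool} {x : Tor S.g.M} (hx : S.W l x) : ¬S.lab.act l x := by
  intro h
  rcases Geo.act_cases _ _ _ h with h | h
  · exact (in_iff.1 hx.1).elim h.not_blk₁ h.not_blk₂
  · exact hx.2.1 (ce_eq_iff.2 h)

theorem not_W_ctr (l : Tor S.g.M → Bool) {y : Tor S.g.M} (hy : S.ce y = y) : ¬S.W l y :=
  fun h => h.2.1 hy

theorem not_W_plain (l : Tor S.g.M → Bool) {x : Tor S.g.M} (hx : S.g.plain x) : ¬S.W l x :=
  fun h => (in_iff.1 h.1).elim hx.not_blk₁ hx.not_blk₂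

/-- the depth is `1`-Lipschitz -/
theorem dep_le (x z : Tor S.g.M) : S.dep x ≤ d1 z x + S.dep z := by
  have h1 := S.hr₁
  have h2 := S.hr₂
  have t := d1_triangle z x
  by_cases hx : S.g.blk₁ x
  · rw [dep, pa_blk₁ hx, ce_blk₁ hx]
    by_cases e : S.g.c₁ z = S.g.c₁ x
    · have := t (S.g.c₁ x)
      by_cases hz : S.g.blk₁ z
      · rw [dep, pa_blk₁ hz, ce_blk₁ hz, e]; omega
      · have : ¬d1 z (S.g.c₁ z) ≤ S.g.r₁ := fun h => hz ⟨by
          rw [← Geo.hole_c₁, e, Geo.hole_c₁]; exact hx.1, h⟩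
        rw [e] at this; omega
    · have := hx.le_d1 e; omega
  · rw [dep, pa_not hx, ce_not hx]
    by_cases hz : S.g.blk₁ z
    · have := Geo.le_d1_of_not_hole x hz.1; omega
    · by_cases e : S.g.c₂ z = S.g.c₂ x
      · have := t (S.g.c₂ x)
        rw [dep, pa_not hz, ce_not hz, e]; omega
      · have := Geo.le_d1_of_c₂_ne e; omega

theorem dep_ctr {y : Tor S.g.M} (hy : S.ce y = y) : S.dep y = (S.pa y).R := by simp [dep, hy]

theorem dep_plain {x : Tor S.g.M} (hx : S.g.plain x) : S.dep x = 0 := by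
  have : ¬_ := fun h => (in_iff.1 h).elim hx.not_blk₁ hx.not_blk₂
  unfold dep; omega

variable (S)

/-- badness -/
noncomputable def Λ (x : Tor S.g.M) : ℝ := Real.exp (S.A + 2 * S.k * S.dep x)

/-- references -/
noncomputable def r (l : Tor S.g.M → Bool) (x : Tor S.g.M) : ℂ :=
  if S.W l x then sh S.En (0 + (S.pa x).τ (d1 x (S.ce x))) ((S.pa x).cen S.En (off (S.ce x) x))
  else sh S.En 1 0

/-- losses -/
noncomputable def κ (l : Tor S.g.M → Bool) (x : Tor S.g.M) : ℝ :=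
  if S.W l x then 10 / (S.pa x).l else 3 * Real.log (S.Λ x)

/-- admissible families of site laws for the labels `l` -/
structure Fam (l : Tor S.g.M → Bool) (μ : Tor S.g.M → Measure ℂ) : Prop where
  win : ∀ x, S.W l x → μ x = (S.pa x).tc S.En (off (S.ce x) x)
  gen : ∀ x, ¬S.W l x → Reg S.En S.h S.D (μ x)

open Classical in
/-- site laws given the labels (convention `w = a - E - i γ`); `μ` = laws of the active sites -/
noncomputable def law (μ : Tor S.g.M → Measure ℂ) (l : Tor S.g.M → Bool) (x : Tor S.g.M) :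
    Measure ℂ :=
  if S.lab.act l x then μ x else tl S.En 0 (dens ((S.lab.site x).den (l x)))

theorem reg_of_le {f : ℝ → ℝ} (hm : Measurable f) [IsProbabilityMeasure (dens f)]
    (hf : ∀ a, f a ≤ 2 * ud S.h a) {γ : ℝ} (h0 : 0 ≤ γ) (h1 : γ ≤ S.h + 1) :
    Reg S.En S.h S.D (tl S.En γ (dens f)) := by
  have hh := S.h_pos
  refine reg_tl S.L₁.D_nonneg (dens_le_vol fun a => (hf a).trans ?_)
    (ae_dens hm fun a ha => abs_le_of_ud_pos (by linarith [hf a])) h0 h1
  refine le_trans ?_ S.hD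
  rw [show S.h⁻¹ = 2 * (1 / (2 * S.h)) by field_simp]
  linarith [ud_le S.h a hh]

variable {S} {l l' : Tor S.g.M → Bool} {μ μ' : Tor S.g.M → Measure ℂ}

/-- the closed law of a site -/
theorem closed_win {x : Tor S.g.M} (hx : S.W l x) :
    tl S.En 0 (dens ((S.lab.site x).den (l x))) = (S.pa x).tc S.En (off (S.ce x) x) := by
  have e : off (S.ce x) x ≠ 0 := fun e => hx.2.1 (d1_eq_zero.1 (n1_eq_zero.2 e)).symm
  rw [hx.2.2, site_in hx.1, Site.den, if_pos rfl, Led.site_wd _ e]; rfl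

theorem closed_reg {x : Tor S.g.M} (hx : ¬S.W l x) :
    Reg S.En S.h S.D (tl S.En 0 (dens ((S.lab.site x).den (l x)))) := by
  have := (S.lab.site x).isProb_den S.h_pos (l x)
  have h01 : 0 ≤ S.h + 1 := by linarith [S.h_pos]
  cases hl : l x
  · rw [hl] at this
    exact S.reg_of_le ((S.lab.site x).measurable_den false) (S.lab.site x).rd_le le_rfl h01
  by_cases h1 : d1 x (S.ce x) ≤ (S.pa x).R + 1
  · have e : S.ce x = x := by_contra fun e => hx ⟨h1, e, hl⟩
    rw [site_in h1, e, off_self, Site.den, if_pos rfl, Led.site_zero]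
    exact (S.led x).reg_act le_rfl h01
  · rw [in_iff, not_or] at h1
    have e : S.lab.site x = Site.triv S.h_pos := Geo.site_other _ _ _ h1.1 h1.2
    rw [e, Site.triv_den]
    have := isProb_unif S.h_pos
    exact S.reg_of_le (measurable_ud _) (fun a => by linarith [ud_nonneg S.h_pos a]) le_rfl h01

theorem fam_law (hμ : ∀ x, S.lab.act l x → Reg S.En S.h S.D (μ x)) : S.Fam l (S.law μ l) where
  win x hx := (if_neg hx.not_act).trans (closed_win hx)
  gen x hx := by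
    unfold law; split_ifs with h
    exacts [hμ x h, closed_reg hx]

theorem Fam.update (F : S.Fam l μ) {y : Tor S.g.M} (hy : ¬S.W l y) {ν : Measure ℂ}
    (hν : Reg S.En S.h S.D ν) : S.Fam l (update μ y ν) where
  win x hx := by rw [update_of_ne (by rintro rfl; exact hy hx)]; exact F.win x hx
  gen x hx := by
    by_cases e : x = y
    · rw [e, update_self]; exact hν
    · rw [update_of_ne e]; exact F.gen x hx

theorem Fam.law (F : S.Fam l μ) (x : Tor S.g.M) : T.Law (μ x) (S.r l x) (S.Λ x) (S.κ l x) := by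
  unfold r κ
  split_ifs with h
  · rw [F.win x h]; exact (S.led x).law_win _
  · exact (law0_mono ((F.gen x h).law0 S.h_pos.le S.L₁.D_nonneg S.hA) (S.L₁.le_exp _)).law

theorem Fam.prob (F : S.Fam l μ) (x : Tor S.g.M) : IsProbabilityMeasure (μ x) := (F.law x).prob

/-- the environment -/
noncomputable def Fam.env (F : S.Fam l μ) {η : ℝ} (h0 : 0 < η) (h1 : η ≤ 1) :
    T.Env (Tor S.g.M) where
  G := tgraph S.g.M
  η := η
  μ := μ
  r := S.r l
  Λ := S.Λ
  κ := S.κ l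
  deg := deg_tor
  η0 := h0
  η1 := h1
  law := F.law

/-- the environment with the auxiliary law at the centre `y` -/
noncomputable def Fam.home (F : S.Fam l μ) {η : ℝ} (h0 : 0 < η) (h1 : η ≤ 1) {y : Tor S.g.M}
    (hy : S.ce y = y) {γ : ℝ} (hγ : 0 ≤ γ) (hγ1 : γ ≤ 1) : T.Env (Tor S.g.M) where
  G := tgraph S.g.M
  η := η
  μ := Function.update μ y ((S.pa y).aux S.En γ)
  r := Function.update (S.r l) y (sh S.En (γ + (S.pa y).τy) ((S.pa y).cen S.En 0))
  Λ := S.Λ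
  κ := Function.update (S.κ l) y (10 / (S.pa y).l)
  deg := deg_tor
  η0 := h0
  η1 := h1
  law x := by
    by_cases e : x = y
    · rw [e, update_self, update_self, update_self, Λ, dep_ctr hy]
      exact (S.led y).law_aux hγ hγ1
    · rw [update_of_ne e, update_of_ne e, update_of_ne e]; exact F.law x

theorem Λ_le {x y : Tor S.g.M} {ρ : ℕ} (hx : x ∈ ball y ρ) :
    S.Λ x ≤ Real.exp (S.A + 2 * S.k * (ρ + S.dep y : ℕ)) := by
  have h1 := dep_le x y
  rw [mem_ball, d1_comm] at hx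
  have := S.L₁.k_nonneg
  unfold Λ
  gcongr
  omega

theorem grow {E : T.Env (Tor S.g.M)} (hG : E.G = tgraph S.g.M) (hΛ : E.Λ = S.Λ) (x₀ : Tor S.g.M)
    {lam : ℝ} (hl : S.A + 2 * S.k * (S.dep x₀ + 1) ≤ lam) : E.Grow x₀ lam := fun n x hx => by
  rw [hG, ball_tor] at hx
  have h1 := S.L₁.k_nonneg
  have h2 := S.L₁.A_nonneg
  have h3 : Real.log (S.Λ x) ≤ _ := Real.log_le_log (Real.exp_pos _) (Λ_le hx)
  rw [Real.log_exp] at h3
  rw [hΛ]
  refine h3.trans (le_trans ?_ (mul_le_mul_of_nonneg_right hl (by positivity)))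
  push_cast
  have h4 : (0 : ℝ) ≤ n := Nat.cast_nonneg _
  have h5 : (0 : ℝ) ≤ S.dep x₀ := Nat.cast_nonneg _
  nlinarith [mul_nonneg h2 h4, mul_nonneg (mul_nonneg h1 h4) h5]

/-- the laws of one family against the references of another one -/
theorem Fam.u2 (F : S.Fam l μ) (F' : S.Fam l' μ') (x : Tor S.g.M) {L : ℝ} (hL : S.Λ x ≤ L) :
    T.U2 (μ x) (S.r l' x) (10 * L ^ 3) :=
  u2_shift (F.law x).toLaw0 ((F'.law x).nr.trans hL) hL

section home

variable (F : S.Fam l μ) {η : ℝ} (h0 : 0 < η) (h1 : η ≤ 1) {y : Tor S.g.M}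
  (hy : S.ce y = y) {γ : ℝ} (hγ : 0 ≤ γ) (hγ1 : γ ≤ 1)
  (hl : ∀ x ∈ ball y ((S.pa y).R + 1), l x = true)
include hl

theorem W_of_ball (hy : S.ce y = y) {x : Tor S.g.M} (hx : x ≠ y) (hd : d1 x y ≤ (S.pa y).R + 1) :
    S.W l x := by
  obtain ⟨e1, e2⟩ := of_ball hy hd
  exact ⟨by rwa [e1, e2], by rw [e1]; exact hx.symm, hl x (mem_ball.2 hd)⟩

theorem Fam.block (hη : η ≤ (S.pa y).δ ^ 2 / 16) (hγ' : γ + η ≤ (S.pa y).δ ^ 2) {lam : ℝ}
    (hlam : S.A + 2 * S.k * ((S.pa y).j + 1) ≤ lam) :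
    T.Block (F.home h0 h1 hy hγ hγ1) ((S.pa y).act S.En γ) (ball y ((S.pa y).R + 1))
      ((S.pa y).layer y) y (ut (S.pa y).Mo (S.pa y).R y) (fun x => (S.pa y).win (d1 x y))
      (S.pa y).b γ (S.pa y).P (S.pa y).s lam ((S.pa y).j + 1) := by
  refine (S.pa y).block (two_mul_lt y) _ rfl y hη hγ hγ' (fun x hx hd => ?_)
    ⟨update_self .., update_self ..⟩ fun x hx => grow rfl rfl x (le_trans (le_of_eq ?_) hlam)
  · have hw := W_of_ball hl hy hx hd
    obtain ⟨e1, e2⟩ := of_ball hy hd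
    refine ⟨(update_of_ne hx ..).trans ?_, (update_of_ne hx ..).trans ?_⟩
    · rw [F.win x hw, e1, e2]; rfl
    · rw [r, if_pos hw, e1, e2]
  · obtain ⟨e1, e2⟩ := of_ball (x := x) hy (by omega)
    have := (S.pa y).jR
    rw [dep, e1, e2, hx, show (S.pa y).R - ((S.pa y).R - (S.pa y).j) = (S.pa y).j by omega]

theorem Fam.sum_κ : ∑ x ∈ ball y ((S.pa y).R + 1), (F.home h0 h1 hy hγ hγ1).κ x ≤ 1 := by
  have e : ∀ x ∈ ball y ((S.pa y).R + 1), (F.home h0 h1 hy hγ hγ1).κ x ≤ 10 / (S.pa y).l := by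
    intro x hx
    by_cases e : x = y
    · rw [e]; exact (update_self ..).le
    · refine le_of_eq ((update_of_ne e ..).trans ?_)
      rw [κ, if_pos (W_of_ball hl hy e (mem_ball.1 hx)), (of_ball hy (mem_ball.1 hx)).2]
  refine (sum_le_card_nsmul _ _ _ e).trans ?_
  have h2 : ((ball y ((S.pa y).R + 1)).card : ℝ) ≤ (2 * ((S.pa y).R + 1 : ℝ) + 1) ^ 2 := by
    exact_mod_cast card_ball_le y ((S.pa y).R + 1)
  rw [nsmul_eq_mul, mul_div_assoc', div_le_one (S.pa y).l_pos]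
  linarith [(S.led y).hκ]

end home

/-- probability that a block is complete -/
theorem le_prod_z {y : Tor S.g.M} (hy : S.ce y = y) :
    ((S.pa y).δ ^ 2 / (64 * S.h * (S.pa y).l ^ 2)) ^ (2 * ((S.pa y).R + 1) + 1) ^ 2 ≤
      ∏ x ∈ ball y ((S.pa y).R + 1), (S.lab.site x).z := by
  have h1 := S.h_pos
  have h2 := (S.pa y).l_pos
  have h3 := ((S.led y).le_z 0).trans ((S.led y).site 0).z_le
  refine (pow_le_pow_of_le_one (by positivity) (by linarith) (card_ball_le y _)).trans ?_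
  rw [← prod_const]
  refine prod_le_prod (fun _ _ => by positivity) fun x hx => ?_
  obtain ⟨e1, e2⟩ := of_ball hy (mem_ball.1 hx)
  rw [site_in (by rw [e1, e2]; exact mem_ball.1 hx), ← e2]
  exact (S.led x).le_z _

end Sys

end Crest.Agent.N334.Md
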