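import Crest.Agent.N334.Md.Sys

/-!
# Row 334 (helper14): existence of the block parameters, with asymptotics
-/

set_option autoImplicit false

namespace Crest.Agent.N334.Md

theorem mul_log_le {c x : ℝ} (hc : 0 ≤ c) (hx : (2 * c) ^ 2 ≤ x) (hx0 : 0 < x) :
    c * Real.log x ≤ x := by
  have h1 : 2 * c ≤ √x := Real.le_sqrt_of_sq_le hx
  have h2 : Real.log x ≤ 2 * √x := by
    have := Real.log_le_sub_one_of_pos (Real.sqrt_pos.2 hx0)
    rw [Real.log_sqrt hx0.le] at this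
    linarith
  have h3 := Real.mul_self_sqrt hx0.le
  nlinarith [Real.sqrt_nonneg x, mul_le_mul_of_nonneg_left h2 hc]

theorem le_exp_mul {c t : ℝ} (hc : 0 ≤ c) (ht : 1 ≤ t) : c ≤ Real.exp (c * t) := by
  nlinarith [Real.add_one_le_exp (c * t)]

theorem one_par (Mo : Mode) {w0 b K : ℝ} (hw : 0 < w0) (hw1 : w0 ≤ 1) (hb1 : b ≤ 1)
    (h1 : 8000 ≤ K) (h2 : w0⁻¹ ≤ K) (h3 : 288 / (Mo.s * Mo.c ^ 2) ≤ K) (hb : 0 < b)
    (h4 : 2 * b⁻¹ ≤ K) : ∃ C : ℝ, K + 14 ≤ C ∧ -Real.log Mo.r ≤ C ∧ ∀ r : ℕ, C ≤ r → ∃ p : Par,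
      p.Mo = Mo ∧ p.w0 = w0 ∧ p.b = b ∧ r = p.R + 1 ∧ p.l = 10 * (2 * r + 1) ^ 2 ∧
      p.P = Real.exp ((K + 14) * Real.log r) ∧ K * (r + 1) ^ 7 ≤ p.P ∧
      (p.j : ℝ) + 1 ≤ C * Real.log r ∧ Real.exp (-(C * r)) ≤ p.δ ∧ p.δ ≤ Real.exp (-(r / C)) := by
  obtain ⟨k, hk⟩ : ∃ k, k = -Real.log Mo.r := ⟨_, rfl⟩
  have hk0 : 0 < k := by rw [hk]; exact neg_pos.2 (Real.log_neg Mo.r_pos Mo.r_lt)
  have hρ : ∀ n : ℕ, Mo.r ^ n = Real.exp (-(k * n)) := fun n => by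
    rw [hk, neg_mul, neg_neg, mul_comm, Real.exp_nat_mul, Real.exp_log Mo.r_pos]
  obtain ⟨c, hc⟩ : ∃ c, c = K + 14 := ⟨_, rfl⟩
  have hc0 : 0 < c := by linarith
  obtain ⟨e, he⟩ : ∃ e, e = 8 / w0 / Mo.c := ⟨_, rfl⟩
  have hm := Mo.c_pos
  have he1 : 8 / w0 ≤ e := by rw [he]; exact le_div_self (by positivity) hm Mo.c_le
  have he0 : 0 < e := lt_of_lt_of_le (by positivity) he1
  obtain ⟨q, hq⟩ : ∃ q, q = (12 * c + e) / k := ⟨_, rfl⟩
  have hq0 : 0 < q := by rw [hq]; positivity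
  have hqk : q * k = 12 * c + e := by rw [hq]; field_simp
  have hk' : 0 < 2 / k := by positivity
  obtain ⟨C, hC⟩ : ∃ C, C = (2 * (2 * (q + 2))) ^ 2 + 2 * (q + 2) + c + k + 2 / k := ⟨_, rfl⟩
  have hs := sq_nonneg (2 * (2 * (q + 2)))
  refine ⟨C, by linarith, by linarith, fun r hr => ?_⟩
  have hr3 : (3 : ℝ) ≤ r := by linarith
  obtain ⟨R, rfl⟩ : ∃ R, r = R + 1 := ⟨r - 1, by
    have : 3 ≤ r := by exact_mod_cast hr3
    omega⟩
  push_cast at hr hr3 ⊢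
  obtain ⟨t, ht⟩ : ∃ t, t = Real.log (R + 1) := ⟨_, rfl⟩
  have ht1 : 1 ≤ t := by
    rw [ht, Real.le_log_iff_exp_le (by linarith)]
    linarith [Real.exp_one_lt_d9]
  have htr : 2 * (q + 2) * t ≤ R + 1 := ht ▸ mul_log_le (by linarith) (by linarith) (by linarith)
  rw [← ht, ← hc]
  have hP : K * ((R : ℝ) + 1 + 1) ^ 7 ≤ Real.exp (c * t) := by
    rw [hc, add_mul, Real.exp_add]
    refine mul_le_mul (le_exp_mul (by linarith) ht1) ?_ (by positivity) (by positivity)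
    rw [show 14 * t = ((7 : ℕ) : ℝ) * (((2 : ℕ) : ℝ) * t) by push_cast; ring, Real.exp_nat_mul,
      Real.exp_nat_mul, ht, Real.exp_log (by linarith)]
    exact pow_le_pow_left₀ (by linarith) (by nlinarith) 7
  have hx : (1 : ℝ) ≤ (R : ℝ) + 1 + 1 := by linarith
  have hK : ∀ n ≤ 7, K * ((R : ℝ) + 1 + 1) ^ n ≤ Real.exp (c * t) := fun n hn =>
    (mul_le_mul_of_nonneg_left (pow_le_pow_right₀ hx hn) (by linarith)).trans hP
  have hK0 : K ≤ Real.exp (c * t) := by simpa using hK 0 (by norm_num)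
  have hδ : 8 / w0 * Mo.r ^ R ≤ Real.exp (e * t - k * R) := by
    rw [hρ, sub_eq_add_neg, Real.exp_add]
    exact mul_le_mul_of_nonneg_right (he1.trans (le_exp_mul he0.le ht1)) (Real.exp_pos _).le
  have hj := Nat.ceil_lt_add_one (show 0 ≤ q * t by positivity)
  have hj' := Nat.le_ceil (q * t)
  have h5 : (2 * ((R : ℝ) + 1) + 1) ^ 2 ≤ 4 * ((R : ℝ) + 1 + 1) ^ 2 := by nlinarith
  refine ⟨{
    Mo := Mo, w0 := w0, l := 10 * (2 * (R + 1) + 1) ^ 2, P := Real.exp (c * t), b := b, R := R,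
    j := ⌈q * t⌉₊, w0_pos := hw, w0_le := hw1
    hl := by nlinarith
    big := by linarith
    card := by nlinarith [hK 2 (by norm_num), sq_nonneg ((R : ℝ) + 1 + 1)]
    lP := by
      have := pow_le_pow_left₀ (by positivity) h5 2
      nlinarith [hK 4 (by norm_num), pow_pos (zero_lt_one.trans_le hx) 4]
    wP := inv_le_of_inv_le₀ hw (h2.trans hK0)
    obsP := by
      rw [mul_comm 288, mul_div_assoc, mul_comm]
      exact (mul_le_mul h3 (pow_le_pow_left₀ (by positivity) (by linarith) 7) (by positivity)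
        (by linarith)).trans hP
    bP := by
      rw [← div_eq_mul_inv, div_le_comm₀ (Real.exp_pos _) hb, div_eq_mul_inv]; exact h4.trans hK0
    b1 := hb1
    sP := by
      rw [← Real.exp_nat_mul, ← Real.exp_neg]
      refine hδ.trans (Real.exp_le_exp.2 ?_)
      push_cast
      nlinarith [mul_le_mul_of_nonneg_left htr hk0.le, mul_pos hk0 (zero_lt_one.trans_le ht1),
        mul_pos (mul_pos hq0 hk0) (zero_lt_one.trans_le ht1)]
    R1 := by exact_mod_cast (by linarith : (1 : ℝ) ≤ R)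
    jR := by exact_mod_cast (by nlinarith : (⌈q * t⌉₊ : ℝ) ≤ R)
    hj := by
      have e1 : Real.exp (c * t) ^ 6 * Mo.r ^ ⌈q * t⌉₊ * e ≤ 1 := by
        refine (mul_le_mul_of_nonneg_left (le_exp_mul he0.le ht1)
          (mul_pos (pow_pos (Real.exp_pos _) _) (pow_pos Mo.r_pos _)).le).trans ?_
        rw [hρ, ← Real.exp_nat_mul, ← Real.exp_add, ← Real.exp_add, Real.exp_le_one_iff]
        push_cast
        nlinarith [mul_le_mul_of_nonneg_left hj' hk0.le, mul_pos hc0 (zero_lt_one.trans_le ht1)]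
      rw [he, ← mul_div_assoc, div_le_one hm] at e1
      rwa [mul_right_comm] }, rfl, rfl, rfl, rfl, rfl, rfl, hP, ?_, ?_, ?_⟩
  · change (⌈q * t⌉₊ : ℝ) + 1 ≤ C * t
    nlinarith [mul_le_mul_of_nonneg_right (show q + 2 ≤ C by linarith) (zero_le_one.trans ht1)]
  · change _ ≤ 8 / w0 * Mo.r ^ R
    have e2 : 1 ≤ 8 / w0 := by rw [le_div_iff₀ hw]; linarith
    refine le_trans ?_ (le_mul_of_one_le_left (pow_pos Mo.r_pos _).le e2)
    rw [hρ, Real.exp_le_exp, neg_le_neg_iff]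
    exact mul_le_mul (by linarith) (by linarith) (by linarith) (by linarith)
  · refine hδ.trans (Real.exp_le_exp.2 ?_)
    have e3 : ((R : ℝ) + 1) / C ≤ (R + 1) / (2 / k) :=
      div_le_div_of_nonneg_left (by linarith) hk' (by linarith)
    rw [div_div_eq_mul_div] at e3
    nlinarith [mul_le_mul_of_nonneg_left htr hk0.le, mul_pos hc0 (zero_lt_one.trans_le ht1),
      mul_le_mul_of_nonneg_left ht1 hk0.le]

/-- the parameters of both classes -/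
theorem exists_par {h E₀ : ℝ} (hh : 0 < h) (hE : |E₀| < 4 + h) : ∃ δ C : ℝ, 0 < δ ∧ 1 ≤ C ∧
    ∀ (E : ℝ) (r₁ r₂ : ℕ), |E - E₀| ≤ δ → C ≤ r₁ → r₁ ≤ r₂ → ∃ (p₁ p₂ : Par) (D A k : ℝ),
      r₁ = p₁.R + 1 ∧ r₂ = p₂.R + 1 ∧ Led p₁ h E D A k ∧ Led p₂ h E D A k ∧ p₁.Mo = p₂.Mo ∧
      p₁.b = p₂.b ∧ h⁻¹ + p₁.b⁻¹ ≤ D ∧
      (1 + (2 * h + 1) ^ 2) * (2 * D) + (|E| + 2 * h + 100) ≤ Real.exp A ∧
      D ≤ C ∧ A ≤ C * Real.log r₂ ∧ k ≤ C ∧
      ∀ p : Par, p = p₁ ∨ p = p₂ → (p.j : ℝ) + 1 ≤ C * Real.log (p.R + 1) ∧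
        p.P ≤ Real.exp (C * Real.log (p.R + 1)) ∧ p.P ≤ Real.exp A ∧
        Real.exp (-(C * (p.R + 1))) ≤ p.δ ∧ p.δ ≤ Real.exp (-((p.R + 1) / C)) := by
  obtain ⟨Mo, μ, hμ, hM⟩ := exists_mode hh hE
  obtain ⟨w, hw0, hw1, hw2⟩ : ∃ w : ℝ, 0 < w ∧ w ≤ 1 ∧ w ≤ μ :=
    ⟨min 1 μ, lt_min one_pos hμ, min_le_left _ _, min_le_right _ _⟩
  obtain ⟨D, hD⟩ : ∃ D, D = h⁻¹ + w⁻¹ := ⟨_, rfl⟩
  have h1 := inv_pos.2 hh
  have h2 := inv_pos.2 hw0
  have h3 : 0 ≤ 288 / (Mo.s * Mo.c ^ 2) := by have := Mo.hs0; positivity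
  have h4 := Mo.P_nonneg
  have h5 : 0 ≤ (1 + (2 * h + 1) ^ 2) * (2 * D) := by rw [hD]; positivity
  have h6 := abs_nonneg E₀
  obtain ⟨K, hK⟩ : ∃ K, K = 8000 + 16000 * w⁻¹ + 288 / (Mo.s * Mo.c ^ 2) + Mo.P + D +
    ((1 + (2 * h + 1) ^ 2) * (2 * D) + (|E₀| + μ + 2 * h)) := ⟨_, rfl⟩
  obtain ⟨C, hC1, hC2, hC⟩ := one_par Mo (K := K) hw0 hw1 hw1 (by linarith) (by linarith)
    (by linarith) hw0 (by linarith)
  refine ⟨μ, C, hμ, by linarith, fun E r₁ r₂ hE' hr hr' => ?_⟩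
  have hr2 : (r₁ : ℝ) ≤ r₂ := by exact_mod_cast hr'
  obtain ⟨p₁, a1, a2, a3, a4, a5, a6, a7, a8, a9⟩ := hC r₁ hr
  obtain ⟨p₂, b1, b2, b3, b4, b5, b6, b7, b8, b9⟩ := hC r₂ (hr.trans hr2)
  have hl : ∀ r : ℕ, C ≤ r → 0 ≤ Real.log r := fun r _ => Real.log_natCast_nonneg r
  have hP : p₁.P ≤ p₂.P := by
    rw [a6, b6, Real.exp_le_exp]
    exact mul_le_mul_of_nonneg_left (Real.log_le_log (by linarith) hr2) (by linarith)
  have hK' : K ≤ p₂.P := le_trans (le_mul_of_one_le_right (by linarith)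
    (one_le_pow₀ (by linarith [(Nat.cast_nonneg r₂ : (0 : ℝ) ≤ _)]))) b7
  have key : ∀ (p : Par) (r : ℕ), p.Mo = Mo → p.w0 = w → p.b = w → r = p.R + 1 →
      p.l = 10 * (2 * r + 1) ^ 2 → K * (r + 1) ^ 7 ≤ p₂.P →
      Led p h E D ((K + 14) * Real.log r₂) (-Real.log Mo.r) := fun p r e1 e2 e3 e4 e5 e6 =>
    { win := fun v => by rw [Par.cen, e1, e2]; linarith [hM E (v 0) (v 1) hE']
      port := by rw [Par.cen, e1, e3]; linarith [hM E ((0 : Fin 2 → ℤ) 0) ((0 : Fin 2 → ℤ) 1) hE']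
      hD := by rw [e3]; linarith
      hA := by
        rw [← b6, e5, e2, div_eq_mul_inv]
        refine le_trans ?_ e6
        have hx : (1 : ℝ) ≤ r + 1 := by linarith [(Nat.cast_nonneg r : (0 : ℝ) ≤ _)]
        have f1 : (2 * (r : ℝ) + 1) ^ 4 ≤ (2 * (r + 1)) ^ 4 :=
          pow_le_pow_left₀ (by positivity) (by linarith) 4
        have f2 : ((r : ℝ) + 1) ^ 4 ≤ (r + 1) ^ 7 := pow_le_pow_right₀ hx (by norm_num)
        calc 10 * (10 * (2 * (r : ℝ) + 1) ^ 2) ^ 2 * w⁻¹ = 1000 * w⁻¹ * (2 * r + 1) ^ 4 := by ring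
          _ ≤ 1000 * w⁻¹ * (2 * (r + 1)) ^ 4 := by gcongr
          _ = 16000 * w⁻¹ * (r + 1) ^ 4 := by ring
          _ ≤ K * (r + 1) ^ 7 := mul_le_mul (by linarith) f2 (by positivity) (by linarith)
      hP := by rw [← b6, e1]; linarith
      hk := by rw [e1, Real.exp_neg, Real.exp_log Mo.r_pos]
      hκ := by rw [e5, e4]; push_cast; exact le_rfl }
  refine ⟨p₁, p₂, D, (K + 14) * Real.log r₂, -Real.log Mo.r, a4, b4,
    key p₁ r₁ a1 a2 a3 a4 a5 (a7.trans hP), key p₂ r₂ b1 b2 b3 b4 b5 b7, a1.trans b1.symm,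
    a3.trans b3.symm, by rw [a3, hD], ?_, by linarith,
    mul_le_mul_of_nonneg_right hC1 (Real.log_natCast_nonneg _), hC2, ?_⟩
  · have := abs_add_le (E - E₀) E₀
    rw [sub_add_cancel] at this
    rw [← b6]; linarith
  · have fin : ∀ r : ℕ, Real.exp ((K + 14) * Real.log r) ≤ Real.exp (C * Real.log r) := fun r =>
      Real.exp_le_exp.2 (mul_le_mul_of_nonneg_right hC1 (Real.log_natCast_nonneg _))
    rintro p (rfl | rfl)
    · have e : (p.R : ℝ) + 1 = r₁ := by rw [a4]; push_cast; rfl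
      rw [e, ← b6]; exact ⟨a8, a6.trans_le (fin _), hP, a9⟩
    · have e : (p.R : ℝ) + 1 = r₂ := by rw [b4]; push_cast; rfl
      rw [e, ← b6]; exact ⟨b8, b6.trans_le (fin _), le_rfl, b9⟩

end Crest.Agent.N334.Md
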