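import Crest.Agent.N334.Md.Chart
import Crest.Agent.N334.Md.Laws
import Crest.Agent.N334.G.Law

/-!
# Row 334 (helper14): a trapping block on the torus

`Par`: the parameters of one class of blocks; `Par.block`: the hypotheses `T.Block`.
-/

set_option autoImplicit false

open Finset MeasureTheory

namespace Crest.Agent.N334.Md

open I

/-- parameters of a class of blocks: mode radius `R`, block radius `R + 1` -/
structure Par where
  Mo : Mode
  w0 : ℝ
  l : ℝ
  P : ℝ
  b : ℝ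
  R : ℕ
  j : ℕ
  w0_pos : 0 < w0
  w0_le : w0 ≤ 1
  hl : 8 ≤ l
  big : 1000 ≤ P
  card : (2 * (R + 1 : ℝ) + 1) ^ 2 ≤ P
  lP : 5 * l ^ 2 ≤ P
  wP : P⁻¹ ≤ w0
  obsP : 288 * (R + 1 : ℝ) ^ 7 / (Mo.s * Mo.c ^ 2) ≤ P
  bP : 2 * P⁻¹ ≤ b
  b1 : b ≤ 1
  sP : 8 / w0 * Mo.r ^ R ≤ (P ^ 12)⁻¹
  R1 : 1 ≤ R
  jR : j ≤ R
  hj : P ^ 6 * (8 / w0) * Mo.r ^ j ≤ Mo.c

namespace Par

variable (p : Par)

/-- the small parameter -/
noncomputable def δ : ℝ := 8 / p.w0 * p.Mo.r ^ p.R
noncomputable def s : ℝ := √√p.δ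
/-- window at distance `d` from the centre -/
noncomputable def win (d : ℕ) : ℝ := min p.w0 (p.δ ^ 2 / (16 * p.Mo.r ^ (2 * d)))
/-- Cauchy width at distance `d` from the centre -/
noncomputable def τ (d : ℕ) : ℝ := p.win d / p.l ^ 2
/-- Cauchy width of the auxiliary law at the centre -/
noncomputable def τy : ℝ := p.P ^ 4 * p.δ ^ 2
/-- centre of the window at offset `v` -/
noncomputable def cen (E : ℝ) (v : Fin 2 → ℤ) : ℝ := E - p.Mo.pot (v 0) (v 1)

theorem P_pos : 0 < p.P := by linarith [p.big]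
theorem l_pos : 0 < p.l := by linarith [p.hl]
theorem b_pos : 0 < p.b := by have := inv_pos.2 p.P_pos; linarith [p.bP]
theorem δ_pos : 0 < p.δ := by have := p.w0_pos; have := p.Mo.r_pos; unfold δ; positivity
theorem δ_le : p.δ ≤ (p.P ^ 12)⁻¹ := p.sP
theorem δ_le_inv : p.δ ≤ p.P⁻¹ :=
  p.δ_le.trans (inv_anti₀ p.P_pos (le_self_pow₀ (by linarith [p.big]) (by norm_num)))
theorem inv_P_le : p.P⁻¹ ≤ 1 / 1000 := by
  rw [one_div]; exact inv_anti₀ (by norm_num) p.big
theorem s_pos : 0 < p.s := Real.sqrt_pos.2 (Real.sqrt_pos.2 p.δ_pos)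
theorem s_four : p.s ^ 4 = p.δ := by
  rw [show 4 = 2 * 2 from rfl, pow_mul, s, Real.sq_sqrt (Real.sqrt_nonneg _),
    Real.sq_sqrt p.δ_pos.le]
theorem s_eight : p.s ^ 8 = p.δ ^ 2 := by rw [← p.s_four, ← pow_mul]
theorem s_le : p.s ≤ (p.P ^ 3)⁻¹ := by
  have := p.P_pos
  refine (pow_le_pow_iff_left₀ p.s_pos.le (by positivity) (by norm_num : 4 ≠ 0)).1 ?_
  rw [p.s_four, inv_pow, ← pow_mul]; exact p.δ_le
theorem win_pos (d : ℕ) : 0 < p.win d := by
  have := p.δ_pos; have := p.Mo.r_pos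
  exact lt_min p.w0_pos (by positivity)
theorem win_le (d : ℕ) : p.win d ≤ p.w0 := min_le_left _ _
theorem win_le_one (d : ℕ) : p.win d ≤ 1 := (p.win_le d).trans p.w0_le
theorem τ_pos (d : ℕ) : 0 < p.τ d := div_pos (p.win_pos d) (pow_pos p.l_pos 2)
theorem sq_mul_τ (d : ℕ) : p.l ^ 2 * p.τ d = p.win d := by
  have := p.l_pos; unfold τ; field_simp
theorem τy_pos : 0 < p.τy := mul_pos (pow_pos p.P_pos 4) (pow_pos p.δ_pos 2)

theorem le_win (d : ℕ) : p.δ ^ 2 / 16 ≤ p.win d := by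
  have h1 := p.δ_pos
  have h2 := p.δ_le_inv
  have h3 := p.inv_P_le
  have h4 := p.Mo.r_pos
  refine le_min (by nlinarith [p.wP]) (div_le_div_of_nonneg_left (by positivity) (by positivity) ?_)
  have := pow_le_one₀ (n := 2 * d) h4.le p.Mo.r_lt.le
  linarith

theorem win_eq {d : ℕ} (hd : p.R ≤ d) : p.win d = p.w0 := by
  have h4 := p.Mo.r_pos
  have h5 := p.w0_pos
  have h6 := p.w0_le
  refine min_eq_left ?_
  rw [le_div_iff₀ (by positivity), δ, mul_pow, ← pow_mul, mul_comm p.R 2]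
  have e1 : p.Mo.r ^ (2 * d) ≤ p.Mo.r ^ (2 * p.R) :=
    pow_le_pow_of_le_one h4.le p.Mo.r_lt.le (by omega)
  have e2 : 8 ≤ 8 / p.w0 := by rw [le_div_iff₀ h5]; linarith
  have e3 : p.w0 * 16 ≤ (8 / p.w0) ^ 2 := by nlinarith
  rw [← mul_assoc]
  exact mul_le_mul e3 e1 (by positivity) (by positivity)

theorem win_mul (d : ℕ) : p.win d * (p.Mo.r ^ d) ^ 2 ≤ p.δ ^ 2 / 16 := by
  have h4 := p.Mo.r_pos
  have : p.win d ≤ p.δ ^ 2 / (16 * p.Mo.r ^ (2 * d)) := min_le_right _ _
  rw [le_div_iff₀ (by positivity), mul_comm 2 d, pow_mul] at this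
  linarith

theorem sq_mul_τy : p.l ^ 2 * p.τy ≤ p.P⁻¹ := by
  have h0 := p.P_pos
  have h1 : p.δ ^ 2 ≤ ((p.P ^ 12)⁻¹) ^ 2 := pow_le_pow_left₀ p.δ_pos.le p.δ_le 2
  have h2 : p.l ^ 2 ≤ p.P := by nlinarith [p.lP, sq_nonneg p.l]
  have h3 : p.l ^ 2 * p.τy ≤ p.P * (p.P ^ 4 * ((p.P ^ 12)⁻¹) ^ 2) := by unfold τy; gcongr
  refine h3.trans ?_
  rw [show p.P * (p.P ^ 4 * ((p.P ^ 12)⁻¹) ^ 2) = (p.P ^ 19)⁻¹ by field_simp]
  exact inv_anti₀ h0 (le_self_pow₀ (by linarith [p.big]) (by norm_num))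

theorem le_lawD {a0 a : ℝ} (h : |a - a0| ≤ p.P⁻¹) : 1 / 8 ≤ G.lawD a0 p.b a := by
  have h0 := p.b_pos
  have h1 := p.bP
  have h2 := p.b1
  refine le_trans ?_ (G.lawD_two_sided h0 (by linarith)).1
  rw [le_div_iff₀ (by positivity)]
  have : (p.b / 2) ^ 2 ≤ (p.b - |a - a0|) ^ 2 := pow_le_pow_left₀ (by positivity) (by linarith) 2
  nlinarith [pow_pos h0 2]

variable {M : ℕ} [NeZero M]

/-- the outer layer -/
def layer (y : Tor M) : Finset (Tor M) := univ.filter fun x => d1 x y = p.R + 1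

theorem mem_layer {y x : Tor M} : x ∈ p.layer y ↔ d1 x y = p.R + 1 := by simp [layer]

theorem mem_inner {y x : Tor M} : x ∈ ball y (p.R + 1) \ p.layer y ↔ d1 x y ≤ p.R := by
  rw [mem_sdiff, mem_ball, mem_layer]; omega

theorem block (hM : 2 * (p.R + 2) < M) (E : T.Env (Tor M)) (hG : E.G = tgraph M) (y : Tor M)
    {En γ lam : ℝ} (hη : E.η ≤ p.δ ^ 2 / 16) (hγ : 0 ≤ γ) (hγ' : γ + E.η ≤ p.δ ^ 2)
    (hx : ∀ x, x ≠ y → d1 x y ≤ p.R + 1 →
      E.μ x = tl En 0 (dens (tcd (p.cen En (off y x)) (p.τ (d1 x y)) p.l)) ∧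
      E.r x = sh En (0 + p.τ (d1 x y)) (p.cen En (off y x)))
    (hy : E.μ y = tl En γ (dens (tcd (p.cen En 0) p.τy p.l)) ∧
      E.r y = sh En (γ + p.τy) (p.cen En 0))
    (hgr : ∀ x, d1 x y = p.R - p.j → E.Grow x lam) :
    T.Block E (tl En γ (G.law (p.cen En 0) p.b)) (ball y (p.R + 1)) (p.layer y) y
      (ut p.Mo p.R y) (fun x => p.win (d1 x y)) p.b γ p.P p.s lam (p.j + 1) := by
  have hP := p.P_pos
  have hl := p.l_pos
  have hR := p.R1
  have hre : ∀ x, d1 x y ≤ p.R + 1 → (E.r x).re = -p.Mo.pot (off y x 0) (off y x 1) := by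
    intro x h
    by_cases e : x = y
    · rw [e, hy.2]; simp [cen]
    · rw [(hx x e h).2]; simp [cen]
  have hx' : ∀ x ∈ (ball y (p.R + 1)).erase y, x ≠ y ∧ d1 x y ≤ p.R + 1 := fun x h =>
    ⟨(mem_erase.1 h).1, mem_ball.1 (mem_erase.1 h).2⟩
  have hseg : ∀ x ∈ (ball y (p.R + 1)).erase y, T.seg (E.r x).re (p.win (d1 x y)) 0 =
      tl En 0 (volume.restrict (Set.Icc (p.cen En (off y x) - p.win (d1 x y))
        (p.cen En (off y x) + p.win (d1 x y)))) := fun x h => by
    rw [tl_restrict, (hx x (hx' x h).1 (hx' x h).2).2, sh_re]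
  exact {
    big := p.big
    s0 := p.s_pos
    s1 := p.s_le
    yB := self_mem_ball _ _
    yZ := by simp [mem_layer]
    ZB := fun x h => mem_ball.2 (p.mem_layer.1 h).le
    Zne := ⟨ch y (p.R + 1) 0, p.mem_layer.2 (by
      have e : |(p.R : ℤ) + 1| = p.R + 1 := abs_of_nonneg (by omega)
      have := d1_ch y (n := p.R + 1) (m := 0) (by rw [e]; simp; omega)
      rw [e] at this; simp at this; omega)⟩
    yfar := fun z hz h => by
      rw [hG, mem_nbr_tor, d1_comm] at h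
      rw [mem_layer] at hz; omega
    inner := fun x h n hn => by
      rw [hG, mem_nbr_tor, d1_comm] at hn
      have := d1_triangle n x y
      rw [mem_inner] at h
      exact mem_ball.2 (by omega)
    card := le_trans (by exact_mod_cast card_ball_le y (p.R + 1)) p.card
    uy := by simp [ut, p.Mo.u_zero]
    usupp := fun x h => if_neg fun h' => h (p.mem_inner.2 h')
    chiy := by rw [hG]; exact (lst_ut p.Mo hM y (by simp) (hre y (by simp))).1 (by simp; omega)
    win0 := fun x _ => ⟨hη.trans (p.le_win _), (p.win_le_one _).trans (by linarith [p.big])⟩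
    sig := fun x h => by
      rw [(hx x (hx' x h).1 (hx' x h).2).2, sh_im, zero_add, abs_neg, abs_of_pos (p.τ_pos _), τ]
      have := p.win_pos (d1 x y)
      exact ⟨div_le_div_of_nonneg_left this.le (by positivity) (by nlinarith [p.lP]),
        div_le_self this.le (by nlinarith [p.hl])⟩
    chi := fun x h => by
      obtain ⟨h1, h2⟩ := lst_ut p.Mo hM y (hx' x h).2 (hre x (hx' x h).2)
      rw [hG, p.s_eight]
      have hw := p.win_pos (d1 x y)
      have e1 : ‖T.Lst (tgraph M) E.r (ut p.Mo p.R y) x‖ ^ 2 ≤ p.δ ^ 2 * p.win (d1 x y) / 4 := by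
        by_cases e : d1 x y < p.R
        · rw [h1 e]; simp; positivity
        · rw [p.win_eq (not_lt.1 e)]
          have f1 : 4 * p.Mo.r ^ p.R = p.δ * p.w0 / 2 := by
            have := p.w0_pos; unfold δ; field_simp; ring
          have f2 := pow_le_pow_left₀ (norm_nonneg _) (h2.trans f1.le) 2
          have f3 : p.w0 * p.w0 ≤ p.w0 := by nlinarith [p.w0_pos, p.w0_le]
          nlinarith [sq_nonneg p.δ]
      have e2 : (2 * p.win (d1 x y) * ‖ut p.Mo p.R y x‖) ^ 2 ≤ p.δ ^ 2 * p.win (d1 x y) / 4 := by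
        have f1 := pow_le_pow_left₀ (norm_nonneg _) (norm_ut_le p.Mo p.R y x) 2
        have f2 := p.win_mul (d1 x y)
        have f3 := mul_le_mul_of_nonneg_left f1 hw.le
        nlinarith
      nlinarith [sq_nonneg (‖T.Lst (tgraph M) E.r (ut p.Mo p.R y) x‖ -
        2 * p.win (d1 x y) * ‖ut p.Mo p.R y x‖)]
    lo := fun x h => by
      rw [hseg x h, (hx x (hx' x h).1 (hx' x h).2).1, ← tl_smul]
      refine tl_mono _ _ (restrict_le_dens fun a ha => le_trans ?_
        (le_tcd (p.τ_pos _) p.hl (by rwa [sq_mul_τ])))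
      have := p.win_pos (d1 x y)
      have := p.τ_pos (d1 x y)
      refine inv_anti₀ (by positivity) ?_
      rw [show 5 * p.l ^ 4 * p.τ (d1 x y) = 5 * p.l ^ 2 * (p.l ^ 2 * p.τ (d1 x y)) by ring, sq_mul_τ]
      exact mul_le_mul_of_nonneg_right p.lP (by positivity)
    hi := fun x h => by
      rw [hseg x h, (hx x (hx' x h).1 (hx' x h).2).1, ← tl_smul]
      refine tl_mono _ _ (dens_le_restrict (fun a => (tcd_le (p.τ_pos _) p.hl a).trans ?_)
        fun a ha => by rw [← sq_mul_τ]; exact tcd_supp (p.τ_pos _) ha)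
      rw [τ, inv_div]
      exact div_le_div_of_nonneg_right (by nlinarith [p.lP]) (p.win_pos _).le
    wide := fun z hz x _ h => by
      rw [mem_layer] at hz
      rw [p.win_eq]
      · exact p.wP
      · rcases h with h | h
        · rw [h]; omega
        · rw [hG, mem_nbr_tor] at h
          have := d1_triangle z x y
          omega
    obs := fun f g h1 h2 => ⟨f y, fun x h => by
      rw [hG] at h2
      have hg0 : 0 ≤ g := (norm_nonneg _).trans (h2 y (self_mem_ball _ _))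
      exact (obs_tor p.Mo hM y hre f g (fun x h => h1 x fun h' => by
        rw [mem_inner] at h'; omega) (fun x h => h2 x (mem_ball.2 h)) (p.mem_inner.1 h)).trans
        (mul_le_mul_of_nonneg_right p.obsP hg0)⟩
    h0 := by have := inv_pos.2 hP; linarith [p.bP]
    h1 := by linarith [p.b1, p.big]
    γ0 := hγ
    γ1 := by rw [p.s_eight]; exact hγ'
    ry := by
      rw [hy.2, sh_im, abs_neg, p.s_eight, abs_of_pos (by linarith [p.τy_pos])]; rfl
    νp := by have := G.law_prob (p.cen En 0) p.b_pos; infer_instance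
    νlo := by
      rw [hy.2, sh_re, ← tl_restrict, ← tl_smul]
      exact tl_mono _ _ (restrict_le_dens (f := G.lawD (p.cen En 0) p.b) fun a ha =>
        le_trans (by linarith [p.inv_P_le]) (p.le_lawD ha))
    sub := by
      rw [hy.1, p.s_eight, ← tl_smul]
      have hτ := p.τy_pos
      refine tl_mono _ _ (le_trans (dens_mono fun a => ?_) (dens_smul
        (G.continuous_lawD (p.cen En 0) p.b).measurable (div_nonneg hP.le hτ.le)).le)
      rcases (tcd_nonneg (c := p.cen En 0) hτ p.hl a).eq_or_lt with e | e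
      · rw [← e]; exact mul_nonneg (div_nonneg hP.le hτ.le) (G.lawD_nonneg _ p.b_pos a)
      · have e1 := p.le_lawD ((tcd_supp hτ e).trans p.sq_mul_τy)
        refine (tcd_le hτ p.hl a).trans ?_
        rw [div_eq_mul_inv, mul_right_comm]
        exact le_mul_of_one_le_left (by positivity) (by nlinarith [p.big])
    tgt := fun z hz => by
      rw [mem_layer] at hz
      have := p.jR
      obtain ⟨x, h1, h2⟩ := exists_toward y (p.R - p.j) (p.j + 1) z (by omega)
      refine ⟨x, p.mem_inner.2 (by omega), le_trans ?_ (le_norm_ut p.Mo (by omega)), ?_, hgr x h1⟩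
      · rw [p.s_four, δ, h1, show p.R = p.j + (p.R - p.j) by omega, pow_add, ← mul_assoc,
          ← mul_assoc, Nat.add_sub_cancel_left]
        exact mul_le_mul_of_nonneg_right p.hj (pow_pos p.Mo.r_pos _).le
      · rw [hG, ← h2]; exact inv_radial (by omega) (by omega) }

end Par

end Crest.Agent.N334.Md
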