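import Mathlib

/-!
# Row 334 (helper14): logarithmic integrals against the Cauchy law

`cau_log`: `∫ log ‖α + β x‖ dx / (π (1 + x²)) = log max ‖α + i β‖ ‖α - i β‖`.
-/

set_option autoImplicit false

open MeasureTheory Real Complex Set

namespace Crest.Agent.N334.Md

/-- standard Cauchy density -/
noncomputable def cau (x : ℝ) : ℝ := (π * (1 + x ^ 2))⁻¹

theorem cau_pos (x : ℝ) : 0 < cau x := by unfold cau; positivity

@[fun_prop] theorem continuous_cau : Continuous cau := by
  unfold cau
  exact Continuous.inv₀ (by fun_prop) fun x => by positivity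

theorem add_I_ne (x : ℝ) : (x : ℂ) + I ≠ 0 := fun h => by simpa using congrArg Complex.im h

theorem circleMap_arctan (x : ℝ) :
    circleMap 0 1 (π + 2 * Real.arctan x) = ((x : ℂ) - I) / (x + I) := by
  have h0 : 0 < 1 + x ^ 2 := by positivity
  have hs : √(1 + x ^ 2) * √(1 + x ^ 2) = 1 + x ^ 2 := Real.mul_self_sqrt h0.le
  have hs0 : √(1 + x ^ 2) ≠ 0 := (Real.sqrt_pos.2 h0).ne'
  have hc : Real.cos (π + 2 * Real.arctan x) = (x ^ 2 - 1) / (1 + x ^ 2) := by
    rw [add_comm, Real.cos_add_pi, Real.cos_two_mul, Real.cos_arctan, div_pow, Real.sq_sqrt h0.le]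
    field_simp; ring
  have hsn : Real.sin (π + 2 * Real.arctan x) = -(2 * x) / (1 + x ^ 2) := by
    rw [add_comm, Real.sin_add_pi, Real.sin_two_mul, Real.cos_arctan, Real.sin_arctan]
    field_simp
    rw [Real.sq_sqrt h0.le]
  rw [circleMap, Complex.exp_mul_I, ← Complex.ofReal_cos, ← Complex.ofReal_sin, hc, hsn,
    eq_div_iff (add_I_ne x)]
  have h1 : ((1 : ℂ) + (x : ℂ) ^ 2) ≠ 0 := by exact_mod_cast h0.ne'
  push_cast
  field_simp
  linear_combination (-(2 * x : ℂ) + I - I) * Complex.I_mul_I

theorem cau_circle (g : ℂ → ℝ) (hg : CircleIntegrable g 0 1) :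
    Integrable (fun x : ℝ => cau x * g (((x : ℂ) - I) / (x + I))) ∧
      ∫ x : ℝ, cau x * g (((x : ℂ) - I) / (x + I)) = circleAverage g 0 1 := by
  have hd : ∀ x ∈ (univ : Set ℝ), HasDerivWithinAt (fun x => π + 2 * Real.arctan x)
      (2 * (1 / (1 + x ^ 2))) univ x := fun x _ =>
    (((Real.hasDerivAt_arctan x).const_mul 2).const_add π).hasDerivWithinAt
  have hinj : InjOn (fun x => π + 2 * Real.arctan x) univ := fun x _ y _ h =>
    Real.arctan_injective (by simp only at h; linarith)
  have him : (fun x => π + 2 * Real.arctan x) '' univ = Ioo 0 (2 * π) := by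
    ext t
    simp only [image_univ, mem_range, mem_Ioo]
    constructor
    · rintro ⟨x, rfl⟩
      have := Real.arctan_lt_pi_div_two x
      have := Real.neg_pi_div_two_lt_arctan x
      constructor <;> linarith
    · rintro ⟨h1, h2⟩
      exact ⟨Real.tan ((t - π) / 2), by
        rw [Real.arctan_tan (by linarith) (by linarith)]; ring⟩
  have hπ := Real.pi_pos
  have e : ∀ x : ℝ, cau x * g (((x : ℂ) - I) / (x + I)) = (2 * π)⁻¹ *
      (|2 * (1 / (1 + x ^ 2))| • g (circleMap 0 1 (π + 2 * Real.arctan x))) := fun x => by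
    rw [circleMap_arctan, abs_of_pos (by positivity), smul_eq_mul, cau]
    field_simp
  simp_rw [e]
  have h1 := integrableOn_image_iff_integrableOn_abs_deriv_smul MeasurableSet.univ hd hinj
    (fun θ => g (circleMap 0 1 θ))
  have h2 := integral_image_eq_integral_abs_deriv_smul MeasurableSet.univ hd hinj
    (fun θ => g (circleMap 0 1 θ))
  rw [him] at h1 h2
  rw [integrableOn_univ] at h1
  rw [Measure.restrict_univ] at h2
  refine ⟨(h1.1 ((intervalIntegrable_iff_integrableOn_Ioo_of_le (by positivity)).1 hg)).const_mul _,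
    ?_⟩
  rw [integral_const_mul, ← h2, Real.circleAverage_def, smul_eq_mul,
    intervalIntegral.integral_of_le (by positivity), integral_Ioc_eq_integral_Ioo]

theorem integrable_cau : Integrable cau := by
  simpa using (cau_circle (fun _ => 1) (circleIntegrable_const _ _ _)).1

theorem integral_cau : ∫ x, cau x = 1 := by
  have := (cau_circle (fun _ => 1) (circleIntegrable_const _ _ _)).2
  rw [Real.circleAverage_const] at this
  simpa using this

theorem cau_log_I : Integrable (fun x : ℝ => cau x * Real.log ‖(x : ℂ) + I‖) ∧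
    ∫ x : ℝ, cau x * Real.log ‖(x : ℂ) + I‖ = Real.log 2 := by
  obtain ⟨h1, h2⟩ := cau_circle (fun z => Real.log ‖z - 1‖) (circleIntegrable_log_norm_sub_const 1)
  rw [circleAverage_log_norm_sub_const₁ (by simp)] at h2
  have e : ∀ x : ℝ, cau x * Real.log ‖(x : ℂ) + I‖ =
      cau x * Real.log 2 - cau x * Real.log ‖((x : ℂ) - I) / (x + I) - 1‖ := fun x => by
    have : ((x : ℂ) - I) / (x + I) - 1 = -(2 * I) / (x + I) := by
      field_simp [add_I_ne x]; ring
    rw [this, norm_div, Real.log_div (by simp) (norm_ne_zero_iff.2 (add_I_ne x))]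
    simp; ring
  simp_rw [e]
  refine ⟨(integrable_cau.mul_const _).sub h1, ?_⟩
  rw [integral_sub (integrable_cau.mul_const _) h1, h2, integral_mul_const, integral_cau]
  simp

theorem ae_aff_ne {α β : ℂ} (h : α ≠ 0 ∨ β ≠ 0) : ∀ᵐ x : ℝ, α + β * x ≠ 0 := by
  have : ({x : ℝ | α + β * x = 0}).Subsingleton := fun x hx y hy => by
    simp only [mem_setOf_eq] at hx hy
    have hβ : β ≠ 0 := by
      rintro rfl
      simp only [zero_mul, add_zero] at hx
      simp [hx] at h
    have : β * x = β * y := by linear_combination hx - hy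
    exact_mod_cast mul_left_cancel₀ hβ this
  rw [ae_iff]
  simpa using this.measure_zero volume

theorem circ_aff {A B : ℂ} (h : A ≠ 0 ∨ B ≠ 0) :
    Integrable (fun x : ℝ => cau x * Real.log ‖A + B * (((x : ℂ) - I) / (x + I))‖) ∧
      ∫ x : ℝ, cau x * Real.log ‖A + B * (((x : ℂ) - I) / (x + I))‖ = Real.log (max ‖A‖ ‖B‖) := by
  by_cases hB : B = 0
  · subst hB
    simp only [zero_mul, add_zero, norm_zero]
    exact ⟨integrable_cau.mul_const _, by
      rw [integral_mul_const, integral_cau, one_mul, max_eq_left (norm_nonneg _)]⟩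
  obtain ⟨h1, h2⟩ := cau_circle (fun z => Real.log ‖z - (-A / B)‖)
    (circleIntegrable_log_norm_sub_const 1)
  rw [circleAverage_log_norm_sub_const_eq_posLog] at h2
  have hne : (A - B) * I ≠ 0 ∨ A + B ≠ 0 := by
    by_contra hc
    rw [not_or, not_not, not_not] at hc
    have e1 : A - B = 0 := (mul_eq_zero.1 hc.1).resolve_right I_ne_zero
    exact hB (by linear_combination (hc.2 - e1) / 2)
  have e : (fun x : ℝ => cau x * Real.log ‖A + B * (((x : ℂ) - I) / (x + I))‖) =ᵐ[volume]
      fun x : ℝ => cau x * Real.log ‖B‖ + cau x * Real.log ‖((x : ℂ) - I) / (x + I) - -A / B‖ := by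
    filter_upwards [ae_aff_ne hne] with x hx
    have e1 : A + B * (((x : ℂ) - I) / (x + I)) = B * (((x : ℂ) - I) / (x + I) - -A / B) := by
      field_simp; ring
    have e2 : ((x : ℂ) - I) / (x + I) - -A / B ≠ 0 := fun h0 => hx (by
      rw [h0, mul_zero] at e1
      have := add_I_ne x
      field_simp at e1
      linear_combination e1)
    rw [e1, norm_mul, Real.log_mul (norm_ne_zero_iff.2 hB) (norm_ne_zero_iff.2 e2)]
    ring
  refine ⟨((integrable_cau.mul_const _).add h1).congr e.symm, ?_⟩
  rw [integral_congr_ae e, integral_add (integrable_cau.mul_const _) h1, h2, integral_mul_const,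
    integral_cau, one_mul, norm_div, norm_neg, Real.posLog_apply]
  have hB' : 0 < ‖B‖ := norm_pos_iff.2 hB
  rcases le_total ‖A‖ ‖B‖ with e | e
  · rw [max_eq_right e, max_eq_left, add_zero]
    exact Real.log_nonpos (by positivity) ((div_le_one hB').2 e)
  · rw [max_eq_left e, max_eq_right (Real.log_nonneg ((one_le_div hB').2 e)),
      Real.log_div (hB'.trans_le e).ne' hB'.ne']
    ring

/-- the Poisson–Jensen formula for an affine function -/
theorem cau_log {α β : ℂ} (h : α ≠ 0 ∨ β ≠ 0) :
    Integrable (fun x : ℝ => cau x * Real.log ‖α + β * x‖) ∧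
      ∫ x : ℝ, cau x * Real.log ‖α + β * x‖ = Real.log (max ‖α + I * β‖ ‖α - I * β‖) := by
  have hne : (β - I * α) / 2 ≠ 0 ∨ (β + I * α) / 2 ≠ 0 := by
    by_contra hc
    rw [not_or, not_not, not_not] at hc
    have e1 : β = 0 := by linear_combination hc.1 + hc.2
    have e2 : I * α = 0 := by linear_combination hc.2 - hc.1
    rcases h with h | h
    · exact h ((mul_eq_zero.1 e2).resolve_left I_ne_zero)
    · exact h e1
  obtain ⟨h1, h2⟩ := circ_aff hne
  obtain ⟨h3, h4⟩ := cau_log_I
  have e : (fun x : ℝ => cau x * Real.log ‖α + β * x‖) =ᵐ[volume] fun x : ℝ =>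
      cau x * Real.log ‖(β - I * α) / 2 + (β + I * α) / 2 * (((x : ℂ) - I) / (x + I))‖ +
        cau x * Real.log ‖(x : ℂ) + I‖ := by
    filter_upwards [ae_aff_ne h] with x hx
    have e1 : α + β * x =
        ((β - I * α) / 2 + (β + I * α) / 2 * (((x : ℂ) - I) / (x + I))) * (x + I) := by
      field_simp [add_I_ne x]
      linear_combination (2 * α) * Complex.I_mul_I
    have e2 := e1 ▸ hx
    rw [e1, norm_mul, Real.log_mul (norm_ne_zero_iff.2 (left_ne_zero_of_mul e2))
      (norm_ne_zero_iff.2 (add_I_ne x))]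
    ring
  refine ⟨(h1.add h3).congr e.symm, ?_⟩
  rw [integral_congr_ae e, integral_add h1 h3, h2, h4]
  have e1 : ‖(β - I * α) / 2‖ = ‖α + I * β‖ / 2 := by
    rw [norm_div, show β - I * α = -I * (α + I * β) by linear_combination β * Complex.I_mul_I]
    simp
  have e2 : ‖(β + I * α) / 2‖ = ‖α - I * β‖ / 2 := by
    rw [norm_div, show β + I * α = I * (α - I * β) by linear_combination β * Complex.I_mul_I]
    simp
  have hpos : 0 < max ‖(β - I * α) / 2‖ ‖(β + I * α) / 2‖ := by
    rcases hne with e | e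
    · exact lt_max_of_lt_left (norm_pos_iff.2 e)
    · exact lt_max_of_lt_right (norm_pos_iff.2 e)
  rw [← Real.log_mul hpos.ne' two_ne_zero, e1, e2, max_div_div_right two_pos.le]
  congr 1; ring

end Crest.Agent.N334.Md
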