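import Crest.Agent.N334.Md.Cau

/-!
# Row 334 (helper14): truncated logarithmic integrals against the Cauchy law

Window `|x| ≤ l²`, errors `O(1/l)`.
-/

set_option autoImplicit false

open MeasureTheory Real Complex Set

namespace Crest.Agent.N334.Md

theorem measurableSet_tail (L : ℝ) : MeasurableSet {x : ℝ | L < |x|} :=
  measurableSet_lt measurable_const (by fun_prop)

theorem cau_log_shift {l : ℝ} (hl : 0 < l) :
    Integrable (fun x : ℝ => cau x * (Real.log ‖(l : ℂ) * I + 1 * x‖ - Real.log l)) ∧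
      ∫ x : ℝ, cau x * (Real.log ‖(l : ℂ) * I + 1 * x‖ - Real.log l) ≤ 1 / l := by
  obtain ⟨h1, h2⟩ := cau_log (α := (l : ℂ) * I) (β := 1) (Or.inr one_ne_zero)
  simp_rw [mul_sub]
  refine ⟨h1.sub (integrable_cau.mul_const _), ?_⟩
  rw [integral_sub h1 (integrable_cau.mul_const _), h2, integral_mul_const, integral_cau, one_mul]
  have e1 : ‖(l : ℂ) * I + I * 1‖ ≤ l + 1 := (norm_add_le _ _).trans (by simp [abs_of_pos hl])
  have e2 : ‖(l : ℂ) * I - I * 1‖ ≤ l + 1 := (norm_sub_le _ _).trans (by simp [abs_of_pos hl])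
  have e3 : 0 < max ‖(l : ℂ) * I + I * 1‖ ‖(l : ℂ) * I - I * 1‖ := by
    refine lt_max_of_lt_left (norm_pos_iff.2 fun h => ?_)
    have := congrArg Complex.im h
    simp at this; linarith
  have e4 := Real.log_le_log e3 (max_le e1 e2)
  have e5 := Real.log_le_sub_one_of_pos (x := (l + 1) / l) (by positivity)
  rw [Real.log_div (by positivity) hl.ne'] at e5
  have e6 : (l + 1) / l - 1 = 1 / l := by field_simp; ring
  linarith

theorem integrable_cau_log2 : Integrable (fun x : ℝ => cau x * Real.log (2 + |x|)) := by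
  refine Integrable.mono' ((integrable_cau.mul_const (Real.log 3)).add cau_log_I.1)
    (Continuous.aestronglyMeasurable (continuous_cau.mul
      (Continuous.log (by fun_prop) fun x => by positivity))) (ae_of_all _ fun x => ?_)
  have h0 := cau_pos x
  have h1 : |x| ≤ ‖(x : ℂ) + I‖ := by simpa using Complex.abs_re_le_norm ((x : ℂ) + I)
  have h2 : 1 ≤ ‖(x : ℂ) + I‖ := by simpa using Complex.abs_im_le_norm ((x : ℂ) + I)
  have h3 := abs_nonneg x
  rw [Real.norm_eq_abs, abs_of_nonneg (mul_nonneg h0.le (Real.log_nonneg (by linarith)))]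
  simp only [Pi.add_apply]
  rw [← mul_add, ← Real.log_mul (by norm_num) (by linarith)]
  exact mul_le_mul_of_nonneg_left (Real.log_le_log (by linarith) (by linarith)) h0.le

theorem integral_cau_log2 : ∫ x : ℝ, cau x * Real.log (2 + |x|) ≤ Real.log 6 := by
  have : Real.log 6 = ∫ x : ℝ, (cau x * Real.log 3 + cau x * Real.log ‖(x : ℂ) + I‖) := by
    rw [integral_add (integrable_cau.mul_const _) cau_log_I.1, cau_log_I.2, integral_mul_const,
      integral_cau, one_mul, ← Real.log_mul (by norm_num) (by norm_num)]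
    norm_num
  rw [this]
  refine integral_mono integrable_cau_log2 ((integrable_cau.mul_const _).add cau_log_I.1) fun x => ?_
  have h0 := cau_pos x
  have h1 : |x| ≤ ‖(x : ℂ) + I‖ := by simpa using Complex.abs_re_le_norm ((x : ℂ) + I)
  have h2 : 1 ≤ ‖(x : ℂ) + I‖ := by simpa using Complex.abs_im_le_norm ((x : ℂ) + I)
  have h3 := abs_nonneg x
  simp only
  rw [← mul_add, ← Real.log_mul (by norm_num) (by linarith)]
  exact mul_le_mul_of_nonneg_left (Real.log_le_log (by linarith) (by linarith)) h0.le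

theorem tail_log {l : ℝ} (hl : 2 ≤ l) :
    ∫ x in {x : ℝ | l ^ 2 < |x|}, cau x * Real.log (2 + |x|) ≤ 4 / l := by
  have hl0 : 0 < l := by linarith
  obtain ⟨h1, h2⟩ := cau_log_shift hl0
  have hnn : ∀ x : ℝ, 0 ≤ cau x * (Real.log ‖(l : ℂ) * I + 1 * x‖ - Real.log l) := fun x => by
    refine mul_nonneg (cau_pos x).le (sub_nonneg.2 (Real.log_le_log hl0 ?_))
    simpa [abs_of_pos hl0] using Complex.abs_im_le_norm ((l : ℂ) * I + 1 * x)
  calc _ ≤ ∫ x in {x : ℝ | l ^ 2 < |x|},
        4 * (cau x * (Real.log ‖(l : ℂ) * I + 1 * x‖ - Real.log l)) := by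
        refine setIntegral_mono_on integrable_cau_log2.integrableOn (h1.const_mul 4).integrableOn
          (measurableSet_tail _) fun x hx => ?_
        simp only [mem_setOf_eq] at hx
        have e0 : 4 ≤ |x| := by nlinarith
        have e1 : |x| ≤ ‖(l : ℂ) * I + 1 * x‖ := by
          simpa using Complex.abs_re_le_norm ((l : ℂ) * I + 1 * x)
        have e2 := Real.log_le_log (by linarith) e1
        have e3 := Real.log_le_log (by positivity) hx.le
        have e4 : Real.log (2 + |x|) ≤ Real.log (|x| ^ 2) :=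
          Real.log_le_log (by linarith) (by nlinarith)
        rw [Real.log_pow] at e3 e4
        push_cast at e3 e4
        rw [mul_left_comm]
        exact mul_le_mul_of_nonneg_left (by linarith) (cau_pos x).le
    _ ≤ ∫ x, 4 * (cau x * (Real.log ‖(l : ℂ) * I + 1 * x‖ - Real.log l)) :=
        setIntegral_le_integral (h1.const_mul 4) (ae_of_all _ fun x => by
          have := hnn x; simp only [Pi.zero_apply]; linarith)
    _ ≤ 4 / l := by rw [integral_const_mul, div_eq_mul_one_div]; linarith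

theorem tail_mass {l : ℝ} (hl : 2 ≤ l) : ∫ x in {x : ℝ | l ^ 2 < |x|}, cau x ≤ 4 / l := by
  refine le_trans (setIntegral_mono_on integrable_cau.integrableOn integrable_cau_log2.integrableOn
    (measurableSet_tail _) fun x hx => ?_) (tail_log hl)
  simp only [mem_setOf_eq] at hx
  refine le_mul_of_one_le_right (cau_pos x).le ?_
  rw [Real.le_log_iff_exp_le (by positivity)]
  have := Real.exp_one_lt_d9
  nlinarith

theorem le_max_I (α β : ℂ) : ‖α‖ ≤ max ‖α + I * β‖ ‖α - I * β‖ ∧
    ‖β‖ ≤ max ‖α + I * β‖ ‖α - I * β‖ := by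
  have h1 := le_max_left ‖α + I * β‖ ‖α - I * β‖
  have h2 := le_max_right ‖α + I * β‖ ‖α - I * β‖
  have h3 := norm_add_le (α + I * β) (α - I * β)
  have h4 := norm_sub_le (α + I * β) (α - I * β)
  rw [show α + I * β + (α - I * β) = 2 * α by ring] at h3
  rw [show α + I * β - (α - I * β) = 2 * (I * β) by ring] at h4
  simp only [norm_mul, Complex.norm_ofNat, Complex.norm_I, one_mul] at h3 h4
  constructor <;> linarith

theorem log_aff_le {α β : ℂ} {N x : ℝ} (h1 : ‖α‖ ≤ N) (h2 : ‖β‖ ≤ N) (h : α + β * x ≠ 0) :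
    Real.log ‖α + β * x‖ - Real.log N ≤ Real.log (2 + |x|) := by
  have h3 : ‖α + β * x‖ ≤ N * (1 + |x|) := by
    refine (norm_add_le _ _).trans ?_
    rw [norm_mul, Complex.norm_real, Real.norm_eq_abs]
    nlinarith [abs_nonneg x]
  have h4 := norm_pos_iff.2 h
  have hN : 0 < N := by
    by_contra hc
    nlinarith [abs_nonneg x]
  rw [sub_le_iff_le_add, ← Real.log_mul (by positivity) hN.ne']
  exact Real.log_le_log h4 (by nlinarith)

theorem compl_tail (L : ℝ) : {x : ℝ | L < |x|}ᶜ = {x : ℝ | |x| ≤ L} := by ext x; simp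

/-- lower bound for the truncated logarithmic integral of an affine function -/
theorem win_log_ge {l : ℝ} (hl : 2 ≤ l) {α β : ℂ} (h : α ≠ 0 ∨ β ≠ 0) :
    -(4 / l) ≤ ∫ x in {x : ℝ | |x| ≤ l ^ 2},
      cau x * (Real.log ‖α + β * x‖ - Real.log (max ‖α + I * β‖ ‖α - I * β‖)) := by
  obtain ⟨h1, h2⟩ := cau_log h
  set N := max ‖α + I * β‖ ‖α - I * β‖
  have hi : Integrable fun x : ℝ => cau x * (Real.log ‖α + β * x‖ - Real.log N) := by
    simp_rw [mul_sub]; exact h1.sub (integrable_cau.mul_const _)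
  have h0 : ∫ x : ℝ, cau x * (Real.log ‖α + β * x‖ - Real.log N) = 0 := by
    simp_rw [mul_sub]
    rw [integral_sub h1 (integrable_cau.mul_const _), h2, integral_mul_const, integral_cau]; ring
  have h3 := integral_add_compl (measurableSet_tail (l ^ 2)) hi
  rw [compl_tail, h0] at h3
  have h4 : ∫ x in {x : ℝ | l ^ 2 < |x|}, cau x * (Real.log ‖α + β * x‖ - Real.log N) ≤
      ∫ x in {x : ℝ | l ^ 2 < |x|}, cau x * Real.log (2 + |x|) := by
    refine integral_mono_ae hi.integrableOn integrable_cau_log2.integrableOn ?_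
    filter_upwards [ae_restrict_of_ae (ae_aff_ne h)] with x hx
    exact mul_le_mul_of_nonneg_left (log_aff_le (le_max_I α β).1 (le_max_I α β).2 hx) (cau_pos x).le
  linarith [tail_log hl]

theorem cau_posLog_inv : Integrable (fun u : ℝ => cau u * log⁺ |u|⁻¹) ∧
    ∫ u : ℝ, cau u * log⁺ |u|⁻¹ ≤ Real.log 6 := by
  obtain ⟨h1, h2⟩ := cau_log (α := 0) (β := 1) (Or.inr one_ne_zero)
  simp only [one_mul, zero_add, Complex.norm_real, Real.norm_eq_abs, mul_one, zero_sub, norm_neg,
    Complex.norm_I, max_self, Real.log_one] at h1 h2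
  have h3 : ∀ u : ℝ, log⁺ |u| ≤ Real.log (2 + |u|) := fun u => by
    have := abs_nonneg u
    rw [Real.posLog_apply]
    refine max_le (Real.log_nonneg (by linarith)) ?_
    rcases this.eq_or_lt with e | e
    · rw [← e, Real.log_zero]; exact Real.log_nonneg (by norm_num)
    · exact Real.log_le_log e (by linarith)
  have h4 : Integrable (fun u : ℝ => cau u * log⁺ |u|) := by
    refine Integrable.mono' integrable_cau_log2 ?_ (ae_of_all _ fun x => ?_)
    · refine Measurable.aestronglyMeasurable (continuous_cau.measurable.mul ?_)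
      exact measurable_const.max (Real.measurable_log.comp (by fun_prop))
    · rw [Real.norm_eq_abs, abs_of_nonneg (mul_nonneg (cau_pos x).le Real.posLog_nonneg)]
      exact mul_le_mul_of_nonneg_left (h3 x) (cau_pos x).le
  have e : ∀ u : ℝ, cau u * log⁺ |u|⁻¹ = cau u * log⁺ |u| - cau u * Real.log |u| := fun u => by
    rw [← Real.posLog_sub_posLog_inv]; ring
  simp_rw [e]
  refine ⟨h4.sub h1, ?_⟩
  rw [integral_sub h4 h1, h2, sub_zero]
  exact (integral_mono h4 integrable_cau_log2 fun u =>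
    mul_le_mul_of_nonneg_left (h3 u) (cau_pos u).le).trans integral_cau_log2

theorem log_pole_le {m : ℂ} {x : ℝ} (h : x - m.re ≠ 0) (hm : m + I ≠ 0) :
    Real.log ‖m + I‖ - Real.log ‖-m + 1 * x‖ ≤ Real.log (2 + |x|) + log⁺ |x - m.re|⁻¹ := by
  have h1 : |x - m.re| ≤ ‖-m + 1 * x‖ := by
    have := Complex.abs_re_le_norm (-m + 1 * x)
    simpa [neg_add_eq_sub] using this
  have h2 : 0 < |x - m.re| := abs_pos.2 h
  have h3 : ‖m + I‖ ≤ ‖-m + 1 * x‖ + (1 + |x|) := by
    have e1 := norm_sub_le ((x : ℂ) + I) (-m + 1 * x)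
    have e2 := norm_add_le (x : ℂ) I
    rw [show (x : ℂ) + I - (-m + 1 * x) = m + I by ring] at e1
    simp only [Complex.norm_real, Real.norm_eq_abs, Complex.norm_I] at e2
    linarith
  have h4 := abs_nonneg x
  set d := ‖-m + 1 * x‖
  have hd : 0 < d := h2.trans_le h1
  have h5 : log⁺ d⁻¹ ≤ log⁺ |x - m.re|⁻¹ :=
    Real.posLog_le_posLog (by positivity) (inv_anti₀ h2 h1)
  have h6 : Real.log ‖m + I‖ ≤ Real.log ((2 + |x|) * max 1 d) :=
    Real.log_le_log (norm_pos_iff.2 hm) (by nlinarith [le_max_left 1 d, le_max_right 1 d])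
  rw [Real.log_mul (by positivity) (by positivity), ← Real.posLog_eq_log_max_one hd.le] at h6
  have h7 := Real.posLog_sub_posLog_inv (x := d)
  linarith

/-- upper bound for the truncated logarithmic integral of the denominator -/
theorem win_log_le {l : ℝ} (hl : 2 ≤ l) {m : ℂ} (hm : 0 ≤ m.im) :
    ∫ x in {x : ℝ | |x| ≤ l ^ 2}, cau x * (Real.log ‖-m + 1 * x‖ - Real.log ‖m + I‖) ≤ 5 / l := by
  obtain ⟨h1, h2⟩ := cau_log (α := -m) (β := 1) (Or.inr one_ne_zero)
  have hmI : m + I ≠ 0 := fun h => by have := congrArg Complex.im h; simp at this; linarith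
  have hmax : max ‖-m + I * 1‖ ‖-m - I * 1‖ = ‖m + I‖ := by
    rw [show -m - I * 1 = -(m + I) by ring, norm_neg]
    refine max_eq_right ?_
    rw [← sq_le_sq₀ (norm_nonneg _) (norm_nonneg _), Complex.sq_norm, Complex.sq_norm,
      Complex.normSq_apply, Complex.normSq_apply]
    simp; nlinarith
  rw [hmax] at h2
  have hi : Integrable fun x : ℝ => cau x * (Real.log ‖-m + 1 * x‖ - Real.log ‖m + I‖) := by
    simp_rw [mul_sub]; exact h1.sub (integrable_cau.mul_const _)
  have h0 : ∫ x : ℝ, cau x * (Real.log ‖-m + 1 * x‖ - Real.log ‖m + I‖) = 0 := by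
    simp_rw [mul_sub]
    rw [integral_sub h1 (integrable_cau.mul_const _), h2, integral_mul_const, integral_cau]; ring
  have h3 := integral_add_compl (measurableSet_tail (l ^ 2)) hi
  rw [compl_tail, h0] at h3
  obtain ⟨h5, h6⟩ := cau_posLog_inv
  have h7 := (h5.comp_sub_right m.re).const_mul (2 / l ^ 4)
  have hl0 : 0 < l := by linarith
  have h4 : ∫ x in {x : ℝ | l ^ 2 < |x|},
      -(cau x * (Real.log ‖-m + 1 * x‖ - Real.log ‖m + I‖)) ≤
      ∫ x in {x : ℝ | l ^ 2 < |x|}, (cau x * Real.log (2 + |x|) +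
        2 / l ^ 4 * (cau (x - m.re) * log⁺ |x - m.re|⁻¹)) := by
    refine integral_mono_ae hi.neg.integrableOn (integrable_cau_log2.add h7).integrableOn ?_
    have hne : ∀ᵐ x : ℝ, x ≠ m.re := by simp [ae_iff]
    filter_upwards [ae_restrict_of_ae hne, ae_restrict_mem (measurableSet_tail (l ^ 2))]
      with x hx hx'
    have e1 := log_pole_le (sub_ne_zero.2 hx) hmI
    have e2 : cau x * log⁺ |x - m.re|⁻¹ ≤ 2 / l ^ 4 * (cau (x - m.re) * log⁺ |x - m.re|⁻¹) := by
      by_cases hc : |x - m.re| ≤ 1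
      · rw [← mul_assoc]
        refine mul_le_mul_of_nonneg_right ?_ Real.posLog_nonneg
        have f1 : (x - m.re) ^ 2 ≤ 1 := by rw [← sq_abs]; nlinarith [abs_nonneg (x - m.re)]
        have f2 : l ^ 4 ≤ x ^ 2 := by rw [← sq_abs x]; nlinarith [sq_nonneg l]
        have hπ := Real.pi_pos
        unfold cau
        rw [← div_eq_mul_inv, inv_eq_one_div, div_div, div_le_div_iff₀ (by positivity)
          (by positivity)]
        have f3 : l ^ 4 * (1 + (x - m.re) ^ 2) ≤ 2 * (1 + x ^ 2) := by nlinarith [pow_pos hl0 4]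
        nlinarith
      · have : log⁺ |x - m.re|⁻¹ = 0 := by
          rw [Real.posLog_eq_zero_iff, abs_inv, abs_abs]
          exact inv_le_one_of_one_le₀ (not_le.1 hc).le
        simp [this]
    have e3 := mul_le_mul_of_nonneg_left e1 (cau_pos x).le
    linarith
  rw [integral_neg, integral_add integrable_cau_log2.integrableOn h7.integrableOn] at h4
  have h8 : ∫ x in {x : ℝ | l ^ 2 < |x|}, 2 / l ^ 4 * (cau (x - m.re) * log⁺ |x - m.re|⁻¹) ≤
      1 / l := by
    refine (setIntegral_le_integral h7 (ae_of_all _ fun x => ?_)).trans ?_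
    · have := cau_pos (x - m.re)
      have : 0 ≤ log⁺ |x - m.re|⁻¹ := Real.posLog_nonneg
      simp only [Pi.zero_apply]; positivity
    · rw [integral_const_mul, integral_sub_right_eq_self (fun u => cau u * log⁺ |u|⁻¹) m.re]
      have e1 : Real.log 6 ≤ 4 := by
        have := Real.log_le_sub_one_of_pos (x := 2) (by norm_num)
        have := Real.log_le_sub_one_of_pos (x := 3) (by norm_num)
        rw [show (6 : ℝ) = 2 * 3 by norm_num, Real.log_mul (by norm_num) (by norm_num)]
        linarith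
      refine (mul_le_mul_of_nonneg_left (h6.trans e1) (by positivity)).trans ?_
      rw [div_mul_eq_mul_div, div_le_div_iff₀ (by positivity) hl0]
      have : 8 ≤ l ^ 3 := by nlinarith [pow_le_pow_left₀ (by norm_num) hl 3]
      nlinarith
  have := tail_log hl
  have e : 5 / l = 4 / l + 1 / l := by ring
  linarith

end Crest.Agent.N334.Md
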