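import Crest.Agent.N334.Md.Mode
import Crest.Agent.N334.T.Defs
import Crest.Agent.N334.I.Tor

/-!
# Row 334 (helper14): the torus as a graph for the engine `T`; the mode on the torus
-/

set_option autoImplicit false

open Finset

namespace Crest.Agent.N334.Md

open I

variable {M : ℕ} [NeZero M]

theorem mem_nbr_tor {x y : Tor M} : y ∈ T.nbr (tgraph M) x ↔ d1 x y = 1 := by
  simp [T.nbr, tgraph_adj]

theorem deg_tor : T.Deg (tgraph M) := fun x => by
  refine le_trans (le_of_eq ?_) (degree_le x)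
  rw [← SimpleGraph.card_neighborFinset_eq_degree]
  congr 1
  ext y; simp [T.nbr]

theorem ball_tor (x : Tor M) (n : ℕ) : T.ball (tgraph M) x n = ball x n := by
  induction n with
  | zero =>
    rw [show T.ball (tgraph M) x 0 = {x} from rfl]
    ext y; simp [d1_eq_zero]
  | succ n ih =>
    rw [show T.ball (tgraph M) x (n + 1) =
      T.ball (tgraph M) x n ∪ (T.ball (tgraph M) x n).biUnion (T.nbr (tgraph M)) from rfl]
    ext y
    simp only [ih, mem_union, mem_biUnion, mem_ball, mem_nbr_tor]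
    constructor
    · rintro (h | ⟨v, h1, h2⟩)
      · omega
      · have := d1_triangle y v x
        rw [d1_comm y v] at this; omega
    · intro h
      rcases h.eq_or_lt with h | h
      · obtain ⟨v, h1, h2⟩ := exists_step h
        exact Or.inr ⟨v, h2.le, by rw [d1_comm]; exact h1⟩
      · left; omega

theorem sum_nbr_tor (hM : 3 ≤ M) (x : Tor M) (f : Tor M → ℂ) :
    ∑ n ∈ T.nbr (tgraph M) x, f n = ∑ j, (f (x + Pi.single j 1) + f (x - Pi.single j 1)) := by
  rw [← sum_tadj_mul, T.nbr, sum_filter]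
  refine sum_congr rfl fun y _ => ?_
  rw [tadj_eq_ite hM]
  by_cases h : (tgraph M).Adj x y <;> simp [h]

/-- the chart around `y` -/
def ch (y : Tor M) (n m : ℤ) : Tor M := shift y ![n, m]

omit [NeZero M] in
theorem ch_off (y x : Tor M) : ch y (off y x 0) (off y x 1) = x := by
  have : ![off y x 0, off y x 1] = off y x := by funext j; fin_cases j <;> rfl
  rw [ch, this, shift_off]

omit [NeZero M] in
theorem ch_zero (y : Tor M) : ch y 0 0 = y := by
  have := ch_off y y
  simpa using this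

omit [NeZero M] in
theorem d1_off (y x : Tor M) : (d1 x y : ℤ) = |off y x 0| + |off y x 1| := n1_cast _

theorem off_ch (y : Tor M) {n m : ℤ} (h : 2 * (|n| + |m|) < M) : off y (ch y n m) = ![n, m] := by
  refine off_shift' y ?_
  have := n1_cast ![n, m]
  simp only [Matrix.cons_val_zero, Matrix.cons_val_one] at this
  omega

theorem d1_ch (y : Tor M) {n m : ℤ} (h : 2 * (|n| + |m|) < M) :
    (d1 (ch y n m) y : ℤ) = |n| + |m| := by
  rw [d1_off, off_ch y h]; simp

theorem sum_nbr_ch (hM : 3 ≤ M) (y : Tor M) (n m : ℤ) (f : Tor M → ℂ) :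
    ∑ x ∈ T.nbr (tgraph M) (ch y n m), f x =
      f (ch y (n + 1) m) + f (ch y (n - 1) m) + f (ch y n (m + 1)) + f (ch y n (m - 1)) := by
  rw [sum_nbr_tor hM, Fin.sum_univ_two]
  simp only [ch, ← shift_add_single, ← shift_sub_single]
  have e1 : ![n, m] + Pi.single 0 1 = ![n + 1, m] := by funext j; fin_cases j <;> simp
  have e2 : ![n, m] - Pi.single 0 1 = ![n - 1, m] := by funext j; fin_cases j <;> simp
  have e3 : ![n, m] + Pi.single 1 1 = ![n, m + 1] := by funext j; fin_cases j <;> simp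
  have e4 : ![n, m] - Pi.single 1 1 = ![n, m - 1] := by funext j; fin_cases j <;> simp
  rw [e1, e2, e3, e4]; ring

theorem exists_toward (y : Tor M) (k : ℕ) : ∀ (i : ℕ) (z : Tor M), d1 z y = k + i →
    ∃ x, d1 x y = k ∧ d1 z x = i := by
  intro i
  induction i with
  | zero => exact fun z h => ⟨z, h, d1_self z⟩
  | succ i ih =>
    intro z h
    obtain ⟨v, h1, h2⟩ := exists_step (n := k + i) h
    obtain ⟨x, h3, h4⟩ := ih v h2
    have e1 := d1_triangle z v x
    have e2 := d1_triangle z x y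
    rw [tgraph_adj] at h1
    exact ⟨x, h3, by omega⟩

/-- the invariant of the recursion for a radial walk -/
theorem inv_radial {y z x : Tor M} {ρ : ℕ} (hz : d1 z y ≤ ρ) (hx : d1 z x + d1 x y ≤ ρ) :
    T.Inv (tgraph M) (ball y ρ) z x (d1 z x) := by
  obtain ⟨p, hp⟩ := exists_walk z x
  refine ⟨mem_ball.2 hz, p, hp.le, fun q hq => ?_⟩
  have h1 := d1_add_of_mem_support p hq
  have h2 := d1_triangle q x y
  simp only [ball_tor]
  refine ⟨fun hne => ball_subset ?_, ?_⟩
  · have : d1 z q ≠ 0 := fun h => hne (d1_eq_zero.1 h).symm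
    omega
  · by_cases h : d1 z q ≤ 1
    · exact (ball_subset (by rw [d1_comm]; omega)).trans subset_union_right
    · exact (ball_subset (by omega)).trans subset_union_left

/-- the mode on the torus, cut at radius `R` -/
noncomputable def ut (Mo : Mode) (R : ℕ) (y x : Tor M) : ℂ :=
  if d1 x y ≤ R then (Mo.u (off y x 0) (off y x 1) : ℝ) else 0

theorem ut_ch (Mo : Mode) (R : ℕ) (y : Tor M) {n m : ℤ} (h : 2 * (|n| + |m|) < M) :
    ut Mo R y (ch y n m) = if |n| + |m| ≤ R then (Mo.u n m : ℂ) else 0 := by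
  have := d1_ch y h
  unfold ut
  rw [off_ch y h]
  refine if_congr (by omega) rfl rfl

omit [NeZero M] in
theorem norm_ut_le (Mo : Mode) (R : ℕ) (y x : Tor M) : ‖ut Mo R y x‖ ≤ Mo.r ^ d1 x y := by
  unfold ut
  split_ifs
  · rw [Complex.norm_real, Real.norm_eq_abs, d1, n1_eq]; exact Mo.u_le _ _
  · rw [norm_zero]; exact (pow_pos Mo.r_pos _).le

omit [NeZero M] in
theorem le_norm_ut (Mo : Mode) {R : ℕ} {y x : Tor M} (h : d1 x y ≤ R) :
    Mo.c * Mo.r ^ d1 x y ≤ ‖ut Mo R y x‖ := by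
  unfold ut
  rw [if_pos h, Complex.norm_real, Real.norm_eq_abs, d1, n1_eq]; exact Mo.le_u _ _

theorem abs_step (n : ℤ) : (|n + 1| ≤ |n| + 1 ∧ |n| ≤ |n + 1| + 1) ∧
    |n - 1| ≤ |n| + 1 ∧ |n| ≤ |n - 1| + 1 := by
  refine ⟨⟨?_, ?_⟩, ?_, ?_⟩ <;> (simp only [abs]; omega)

theorem Mode.norm_u_le (Mo : Mode) {n m : ℤ} {R : ℕ} (h : R ≤ |n| + |m|) :
    ‖(Mo.u n m : ℂ)‖ ≤ Mo.r ^ R := by
  rw [Complex.norm_real, Real.norm_eq_abs]
  refine (Mo.u_le n m).trans (pow_le_pow_of_le_one Mo.r_pos.le Mo.r_lt.le ?_)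
  rw [Int.abs_eq_natAbs, Int.abs_eq_natAbs] at h
  omega

/-- the residual of the cut mode -/
theorem lst_ut (Mo : Mode) {R : ℕ} (hM : 2 * (R + 2) < M) (y : Tor M) {r : Tor M → ℂ} {x : Tor M}
    (hx : d1 x y ≤ R + 1) (hr : (r x).re = -Mo.pot (off y x 0) (off y x 1)) :
    (d1 x y < R → T.Lst (tgraph M) r (ut Mo R y) x = 0) ∧
      ‖T.Lst (tgraph M) r (ut Mo R y) x‖ ≤ 4 * Mo.r ^ R := by
  have hd := d1_off y x
  have hx' := ch_off y x
  unfold T.Lst
  rw [hr]
  generalize off y x 0 = n at *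
  generalize off y x 1 = m at *
  subst hx'
  have a1 := abs_step n
  have a2 := abs_step m
  have hh : (Mo.u (n + 1) m : ℂ) + Mo.u (n - 1) m + Mo.u n (m + 1) + Mo.u n (m - 1) =
      Mo.pot n m * Mo.u n m := by exact_mod_cast Mo.harm n m
  rw [sum_nbr_ch (by omega), ut_ch Mo R y (by omega), ut_ch Mo R y (by omega),
    ut_ch Mo R y (by omega), ut_ch Mo R y (by omega), ut_ch Mo R y (by omega)]
  have hr0 := (pow_pos Mo.r_pos R).le
  have n4 : ∀ a b c d : ℂ, ‖a‖ ≤ Mo.r ^ R → ‖b‖ ≤ Mo.r ^ R → ‖c‖ ≤ Mo.r ^ R → ‖d‖ ≤ Mo.r ^ R →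
      ‖a + b + c + d‖ ≤ 4 * Mo.r ^ R := fun a b c d h1 h2 h3 h4 => by
    linarith [norm_add_le (a + b + c) d, norm_add_le (a + b) c, norm_add_le a b]
  refine ⟨fun h => ?_, ?_⟩
  · rw [if_pos (by omega), if_pos (by omega), if_pos (by omega), if_pos (by omega),
      if_pos (by omega), hh]
    push_cast; ring
  · by_cases h : |n| + |m| ≤ R
    · have k : ∀ n m : ℤ, ‖(if |n| + |m| ≤ R then (Mo.u n m : ℂ) else 0) - Mo.u n m‖ ≤
          Mo.r ^ R := fun n m => by
        split_ifs with h'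
        · simpa using hr0
        · rw [zero_sub, norm_neg]; exact Mo.norm_u_le (by omega)
      rw [if_pos h]
      refine le_trans (le_of_eq ?_) (n4 _ _ _ _ (k (n + 1) m) (k (n - 1) m) (k n (m + 1))
        (k n (m - 1)))
      congr 1
      push_cast
      linear_combination hh
    · have k : ∀ n m : ℤ, R ≤ |n| + |m| → ‖if |n| + |m| ≤ R then (Mo.u n m : ℂ) else 0‖ ≤
          Mo.r ^ R := fun n m h => by
        split_ifs with h'
        · exact Mo.norm_u_le h
        · simpa using hr0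
      rw [if_neg h, mul_zero, zero_add]
      exact n4 _ _ _ _ (k _ _ (by omega)) (k _ _ (by omega)) (k _ _ (by omega)) (k _ _ (by omega))

/-- OBS on the torus -/
theorem obs_tor (Mo : Mode) {R : ℕ} (hM : 2 * (R + 2) < M) (y : Tor M) {r : Tor M → ℂ}
    (hr : ∀ x, d1 x y ≤ R + 1 → (r x).re = -Mo.pot (off y x 0) (off y x 1)) (f : Tor M → ℂ)
    (g : ℝ) (hf : ∀ x, R < d1 x y → f x = 0)
    (hg : ∀ x, d1 x y ≤ R + 1 → ‖T.Lst (tgraph M) r f x‖ ≤ g) {x : Tor M} (hx : d1 x y ≤ R) :
    ‖f x - f y * ut Mo R y x‖ ≤ 288 * (R + 1) ^ 7 / (Mo.s * Mo.c ^ 2) * g := by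
  have hg0 : 0 ≤ g := (norm_nonneg _).trans (hg y (by simp))
  set φ : ℤ → ℤ → ℂ := fun n m => if |n| + |m| ≤ R then f (ch y n m) else 0 with hφ
  have hφ' : ∀ n m : ℤ, |n| + |m| ≤ R + 2 → φ n m = f (ch y n m) := fun n m h => by
    simp only [hφ]
    split_ifs with h'
    · rfl
    · have := d1_ch y (n := n) (m := m) (by omega)
      exact (hf _ (by omega)).symm
  have hd := d1_off y x
  have h0 := abs_nonneg (off y x 0)
  have h1 := abs_nonneg (off y x 1)
  have := obs Mo.Da Mo.Db Mo.y Mo.s Mo.hy Mo.hs0 Mo.hs1 Mo.hs Mo.hβ Mo.hβ0 φ R g hg0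
    (fun n m h => by
      have := abs_nonneg n; have := abs_nonneg m
      simp only [hφ]; rw [if_neg (by omega)])
    (fun n m => by
      have a1 := abs_step n
      have a2 := abs_step m
      by_cases h : |n| + |m| ≤ R + 1
      · have e1 := d1_ch y (n := n) (m := m) (by omega)
        have e2 := hg (ch y n m) (by omega)
        rw [T.Lst, hr _ (by omega), off_ch y (by omega), sum_nbr_ch (by omega)] at e2
        rw [hφ' _ _ (by omega), hφ' _ _ (by omega), hφ' _ _ (by omega), hφ' _ _ (by omega),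
          hφ' _ _ (by omega)]
        refine le_trans (le_of_eq ?_) e2
        congr 1
        simp only [Mode.pot, Matrix.cons_val_zero, Matrix.cons_val_one]
        push_cast; ring
      · simp only [hφ]
        rw [if_neg (by omega), if_neg (by omega), if_neg (by omega), if_neg (by omega),
          if_neg (by omega)]
        simpa using hg0) (off y x 0) (off y x 1) (by omega) (by omega)
  rw [hφ' _ _ (by omega), hφ' 0 0 (by simp; omega), ch_off, ch_zero] at this
  rw [ut, if_pos hx]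
  exact this.trans (le_of_eq (by ring))

end Crest.Agent.N334.Md
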