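import Crest.Agent.N334.Md.Block
import Crest.Agent.N334.I.Geo
import Crest.Agent.N334.T.Log

/-!
# Row 334 (helper14): the concrete environments on the torus

`Sys`: geometry, two classes of blocks and the ledger constants `D, A, k`.  `Sys.lab`: the labels.
`Sys.Fam l μ`: window sites carry the truncated Cauchy laws, all other sites regular laws (`Reg`).
`Sys.env`: the environment; `Sys.home`: the same with the auxiliary law at a centre.
The badness is `Λ x = exp (A + 2 k dep x)` with the `1`-Lipschitz depth `dep`.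
-/

set_option autoImplicit false

open Finset MeasureTheory Function
open scoped ENNReal

namespace Crest.Agent.N334.Md

open I

theorem law0_mono {μ : Measure ℂ} {r : ℂ} {Λ Λ' : ℝ} (h : T.Law0 μ r Λ) (hΛ : Λ ≤ Λ') :
    T.Law0 μ r Λ' where
  prob := h.prob
  big := h.big.trans hΛ
  sig := (inv_anti₀ (by linarith [h.big]) hΛ).trans h.sig
  nr := h.nr.trans hΛ
  u2 a l hl := (h.u2 a l hl).trans (ENNReal.ofReal_le_ofReal (by gcongr))
  u3 s hs := (h.u3 s hs).trans (ENNReal.ofReal_le_ofReal (by gcongr))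

theorem norm_cl' (z : ℂ) : ‖T.cl z‖ = ‖z‖ := by
  simp [T.cl, Complex.norm_def, Complex.normSq_apply]

/-- change of the reference point -/
theorem u2_shift {μ : Measure ℂ} {r r' : ℂ} {Λ L : ℝ} (h : T.Law0 μ r Λ) (hr : ‖r'‖ ≤ L)
    (hΛ : Λ ≤ L) : T.U2 μ r' (10 * L ^ 3) := fun a l hl => by
  have h1 := h.big
  have h2 : ‖T.cl r - T.cl r'‖ ≤ 2 * L := by
    have := norm_sub_le (T.cl r) (T.cl r')
    rw [norm_cl', norm_cl'] at this
    linarith [h.nr]
  have hL : 100 ≤ L := h1.trans hΛ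
  refine le_trans (lintegral_mono (g := fun z => ENNReal.ofReal (10 * L ^ 2) *
    ENNReal.ofReal (1 + ‖T.cl z - T.cl r‖ ^ 2)) fun z => ?_) ?_
  · beta_reduce
    rw [← ENNReal.ofReal_mul (by positivity)]
    refine ENNReal.ofReal_le_ofReal ?_
    have e : ‖T.cl z - T.cl r'‖ ≤ ‖T.cl z - T.cl r‖ + 2 * L :=
      (norm_sub_le_norm_sub_add_norm_sub _ (T.cl r) _).trans (by linarith)
    have e2 := pow_le_pow_left₀ (norm_nonneg _) e 2
    have e3 : 1 ≤ L ^ 2 := by nlinarith
    nlinarith [sq_nonneg (‖T.cl z - T.cl r‖ - 2 * L), sq_nonneg ‖T.cl z - T.cl r‖]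
  · rw [lintegral_const_mul' _ _ ENNReal.ofReal_ne_top]
    refine (mul_le_mul_right (h.u2 a l hl) _).trans ?_
    rw [← ENNReal.ofReal_mul (by positivity)]
    refine ENNReal.ofReal_le_ofReal ?_
    calc 10 * L ^ 2 * (Λ * l) ≤ 10 * L ^ 2 * (L * l) := by gcongr
      _ = _ := by ring

/-- regular laws: potential in `[-h, h]` with density at most `D`, damping at most `h + 1` -/
structure Reg (En h D : ℝ) (μ : Measure ℂ) : Prop where
  prob : IsProbabilityMeasure μ
  supp : ∀ᵐ z ∂μ, |z.re + En| ≤ h ∧ |z.im| ≤ h + 1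
  den : ∀ a l : ℝ, μ {z | |z.re - a| ≤ l} ≤ ENNReal.ofReal (2 * D * l)

theorem measurableSet_supp (En h : ℝ) : MeasurableSet {z : ℂ | |z.re + En| ≤ h ∧ |z.im| ≤ h + 1} :=
  (measurableSet_le (f := fun z : ℂ => |z.re + En|) (by fun_prop) measurable_const).inter
    (measurableSet_le (f := fun z : ℂ => |z.im|) (by fun_prop) measurable_const)

theorem ae_tl {En h γ : ℝ} {ν : Measure ℝ} (hs : ∀ᵐ a ∂ν, |a| ≤ h) (h0 : 0 ≤ γ) (h1 : γ ≤ h + 1) :
    ∀ᵐ z ∂tl En γ ν, |z.re + En| ≤ h ∧ |z.im| ≤ h + 1 := by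
  refine (ae_map_iff (measurable_sh En γ).aemeasurable (measurableSet_supp En h)).2 ?_
  filter_upwards [hs] with a ha
  simpa [abs_of_nonneg h0, h1] using ha

theorem reg_tl {En h D γ : ℝ} {ν : Measure ℝ} [IsProbabilityMeasure ν] (hD0 : 0 ≤ D)
    (hD : ν ≤ ENNReal.ofReal D • volume) (hs : ∀ᵐ a ∂ν, |a| ≤ h) (h0 : 0 ≤ γ)
    (h1 : γ ≤ h + 1) : Reg En h D (tl En γ ν) :=
  ⟨inferInstance, ae_tl hs h0 h1, fun a l => tl_small hD0 hD En γ a l⟩

/-- mixtures over types and levels: only the averaged law of the potential matters -/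
theorem reg_sum {En h D : ℝ} {ι : Type} (s : Finset ι) (c : ι → ℝ≥0∞) (γ : ι → ℝ)
    (ν : ι → Measure ℝ) [∀ i, IsProbabilityMeasure (ν i)] (hc : ∑ i ∈ s, c i = 1) (hD0 : 0 ≤ D)
    (hD : ∑ i ∈ s, c i • ν i ≤ ENNReal.ofReal D • volume) (hs : ∀ i ∈ s, ∀ᵐ a ∂ν i, |a| ≤ h)
    (hγ : ∀ i ∈ s, 0 ≤ γ i ∧ γ i ≤ h + 1) : Reg En h D (∑ i ∈ s, c i • tl En (γ i) (ν i)) where
  prob := ⟨by simp [Measure.finset_sum_apply, hc]⟩
  supp := by
    rw [ae_iff, Measure.finset_sum_apply]
    refine sum_eq_zero fun i hi => ?_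
    rw [Measure.smul_apply, ae_iff.1 (ae_tl (hs i hi) (hγ i hi).1 (hγ i hi).2), smul_zero]
  den a l := by
    refine le_trans (le_of_eq ?_) (tl_small hD0 hD En 0 a l)
    have hm : MeasurableSet {z : ℂ | |z.re - a| ≤ l} :=
      measurableSet_le (by fun_prop) measurable_const
    rw [tl, Measure.map_apply (measurable_sh _ _) hm, Measure.finset_sum_apply,
      Measure.finset_sum_apply]
    refine sum_congr rfl fun i _ => ?_
    rw [Measure.smul_apply, Measure.smul_apply, tl, Measure.map_apply (measurable_sh _ _) hm]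
    simp [Set.preimage]

theorem Reg.law0 {En h D Λ : ℝ} {μ : Measure ℂ} (hμ : Reg En h D μ) (hh : 0 ≤ h) (hD : 0 ≤ D)
    (hΛ : (1 + (2 * h + 1) ^ 2) * (2 * D) + (|En| + 2 * h + 100) ≤ Λ) : T.Law0 μ (sh En 1 0) Λ := by
  have := hμ.prob
  have h1 : 0 ≤ (1 + (2 * h + 1) ^ 2) * (2 * D) := by positivity
  have h2 := abs_nonneg En
  refine law0_of_bdd (T := 2 * h + 1) (D := 2 * D) ?_ (fun a l _ => hμ.den a l) (by linarith) ?_ ?_
    (by linarith) (by linarith)
  · filter_upwards [hμ.supp] with z hz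
    rw [show 2 * h + 1 = h + (h + 1) by ring]
    refine (Complex.norm_le_abs_re_add_abs_im _).trans (add_le_add ?_ ?_)
    · simpa [T.cl] using hz.1
    · have := abs_nonneg z.im
      simp only [T.cl, Complex.sub_im, sh_im, abs_neg, abs_one]
      rw [abs_le]; constructor <;> linarith [hz.2]
  · simpa using inv_le_one_of_one_le₀ (by linarith : 1 ≤ Λ)
  · refine (Complex.norm_le_abs_re_add_abs_im _).trans ?_
    simp only [sh_re, sh_im, zero_sub, abs_neg, abs_one]; linarith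

/-- ledger of one class of blocks -/
structure Led (p : Par) (h En D A k : ℝ) : Prop where
  win : ∀ v, |p.cen En v| + p.w0 ≤ h
  port : |p.cen En 0| + p.b ≤ h
  hD : p.b⁻¹ ≤ D
  hA : 10 * p.l ^ 2 / p.w0 ≤ Real.exp A
  hP : p.Mo.P + 2 ≤ Real.exp A
  hk : p.Mo.r⁻¹ ≤ Real.exp k
  hκ : 10 * (2 * (p.R + 1 : ℝ) + 1) ^ 2 ≤ p.l

namespace Par

variable (p : Par)

/-- the window law at offset `v` -/
noncomputable def tc (En : ℝ) (v : Fin 2 → ℤ) : Measure ℂ :=
  tl En 0 (dens (tcd (p.cen En v) (p.τ (n1 v)) p.l))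

/-- the auxiliary law at the centre -/
noncomputable def aux (En γ : ℝ) : Measure ℂ := tl En γ (dens (tcd (p.cen En 0) p.τy p.l))

/-- the true law of an active centre -/
noncomputable def act (En γ : ℝ) : Measure ℂ := tl En γ (G.law (p.cen En 0) p.b)

instance (En γ : ℝ) : IsProbabilityMeasure (p.act En γ) := by
  have := G.law_prob (p.cen En 0) p.b_pos
  unfold act; infer_instance

end Par

namespace Led

variable {p : Par} {h En D A k : ℝ} (L : Led p h En D A k)
include L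

theorem h_pos : 0 < h := by linarith [L.port, abs_nonneg (p.cen En 0), p.b_pos]
theorem D_nonneg : 0 ≤ D := (inv_pos.2 p.b_pos).le.trans L.hD
theorem k_nonneg : 0 ≤ k := Real.one_le_exp_iff.1
  (((one_le_inv₀ p.Mo.r_pos).2 p.Mo.r_lt.le).trans L.hk)
theorem big : 100 ≤ Real.exp A := by
  refine le_trans ?_ L.hA
  rw [le_div_iff₀ p.w0_pos]; nlinarith [p.hl, p.w0_le]
theorem A_nonneg : 0 ≤ A := Real.one_le_exp_iff.1 (by linarith [L.big])

/-- the port datum -/
noncomputable def portSite : Site h where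
  z := p.b / (4 * h)
  wd := G.lawD (p.cen En 0) p.b
  meas := (G.continuous_lawD _ _).measurable
  nonneg := G.lawD_nonneg _ p.b_pos
  mass := by
    have := (G.law_prob (p.cen En 0) p.b_pos).measure_univ
    rwa [G.law, withDensity_apply _ MeasurableSet.univ, Measure.restrict_univ] at this
  z_nonneg := by have := p.b_pos; have := L.h_pos; positivity
  z_le := by
    have := L.h_pos
    rw [div_le_iff₀ (by linarith)]; linarith [L.port, abs_nonneg (p.cen En 0)]
  le a := by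
    have h0 := L.h_pos
    have h1 := p.b_pos
    rcases le_total p.b |a - p.cen En 0| with e | e
    · rw [G.lawD_zero h1 e, mul_zero]; exact div_nonneg (ud_nonneg h0 a) two_pos.le
    · have e2 : |a| ≤ h := by
        have := abs_add_le (a - p.cen En 0) (p.cen En 0)
        rw [sub_add_cancel] at this; linarith [L.port]
      rw [ud, if_pos e2]
      refine (mul_le_mul_of_nonneg_left (G.lawD_le _ h1 a) (by positivity)).trans (le_of_eq ?_)
      field_simp; norm_num

/-- label data of a block -/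
noncomputable def site (v : Fin 2 → ℤ) : Site h :=
  if v = 0 then L.portSite else
    tcSite (c := p.cen En v) (p.τ_pos (n1 v)) p.hl
      (by rw [p.sq_mul_τ]; linarith [L.win v, p.win_le (n1 v)])

theorem site_zero : (L.site 0).wd = G.lawD (p.cen En 0) p.b := by rw [site, if_pos rfl]; rfl

theorem site_wd {v : Fin 2 → ℤ} (hv : v ≠ 0) :
    (L.site v).wd = tcd (p.cen En v) (p.τ (n1 v)) p.l := by rw [site, if_neg hv]; rfl

theorem le_z (v : Fin 2 → ℤ) : p.δ ^ 2 / (64 * h * p.l ^ 2) ≤ (L.site v).z := by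
  have h0 := L.h_pos
  have h1 := p.l_pos
  have key : ∀ t, p.δ ^ 2 / 16 / p.l ^ 2 ≤ t → p.δ ^ 2 / (64 * h * p.l ^ 2) ≤ t / (4 * h) :=
    fun t ht => le_trans (le_of_eq (by field_simp; ring))
      (div_le_div_of_nonneg_right ht (by positivity))
  unfold site
  split_ifs
  · refine key _ ?_
    have e1 : p.δ ^ 2 / 16 / p.l ^ 2 ≤ p.δ ^ 2 / 16 :=
      div_le_self (by positivity) (by nlinarith [p.hl])
    nlinarith [p.δ_le_inv, p.inv_P_le, p.δ_pos, p.bP]
  · exact key _ (div_le_div_of_nonneg_right (p.le_win _) (by positivity))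

theorem reg_act {γ : ℝ} (h0 : 0 ≤ γ) (h1 : γ ≤ h + 1) : Reg En h D (p.act En γ) := by
  have := G.law_prob (p.cen En 0) p.b_pos
  refine reg_tl L.D_nonneg (dens_le_vol (f := G.lawD (p.cen En 0) p.b) fun a =>
    (G.lawD_le _ p.b_pos a).trans (by rw [one_div]; exact L.hD)) ?_ h0 h1
  filter_upwards [G.law_ae (p.cen En 0) p.b_pos] with a ha
  have := abs_add_le (a - p.cen En 0) (p.cen En 0)
  rw [sub_add_cancel] at this; linarith [L.port]

theorem inv_pow_le (i : ℕ) : (p.Mo.r ^ (2 * i))⁻¹ ≤ Real.exp (2 * k * i) := by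
  rw [← inv_pow, show 2 * k * i = ((2 * i : ℕ) : ℝ) * k by push_cast; ring, Real.exp_nat_mul]
  exact pow_le_pow_left₀ (inv_pos.2 p.Mo.r_pos).le L.hk _

theorem le_exp (i : ℕ) : Real.exp A ≤ Real.exp (A + 2 * k * i) := by
  have := L.k_nonneg
  exact Real.exp_le_exp.2 (le_add_of_nonneg_right (by positivity))

theorem le_δ : p.Mo.r ^ (2 * p.R) * 64 ≤ p.δ ^ 2 := by
  have h5 := p.w0_pos
  have e2 : 8 ≤ 8 / p.w0 := by rw [le_div_iff₀ h5]; linarith [p.w0_le]
  rw [Par.δ, mul_pow, ← pow_mul, mul_comm p.R 2, mul_comm]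
  exact mul_le_mul_of_nonneg_right (by nlinarith) (pow_pos p.Mo.r_pos _).le

theorem law_win (v : Fin 2 → ℤ) : T.Law (p.tc En v) (sh En (0 + p.τ (n1 v)) (p.cen En v))
    (Real.exp (A + 2 * k * (p.R - n1 v : ℕ))) (10 / p.l) := by
  have h1 := L.le_exp (p.R - n1 v)
  have h2 : p.τ (n1 v) ≤ 1 := (div_le_self (p.win_pos _).le (by nlinarith [p.hl])).trans
    (p.win_le_one _)
  refine law_tc (p.τ_pos _) p.hl le_rfl (by rw [p.sq_mul_τ]; exact p.win_le_one _)
    (L.big.trans h1) ?_ ?_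
  · have h3 := p.w0_pos
    have h4 := p.Mo.r_pos
    have h5 := p.l_pos
    have e : p.w0 * p.Mo.r ^ (2 * (p.R - n1 v)) ≤ p.win (n1 v) := by
      refine le_min (mul_le_of_le_one_right h3.le (pow_le_one₀ h4.le p.Mo.r_lt.le)) ?_
      rw [le_div_iff₀ (by positivity)]
      have e1 : p.Mo.r ^ (2 * (p.R - n1 v)) * p.Mo.r ^ (2 * n1 v) ≤ p.Mo.r ^ (2 * p.R) := by
        rw [← pow_add]; exact pow_le_pow_of_le_one h4.le p.Mo.r_lt.le (by omega)
      have e2 := mul_le_of_le_one_left (a := p.w0)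
        (b := p.Mo.r ^ (2 * (p.R - n1 v)) * p.Mo.r ^ (2 * n1 v)) (by positivity) p.w0_le
      nlinarith [L.le_δ, pow_pos h4 (2 * p.R)]
    rw [Par.τ, div_div_eq_mul_div, Real.exp_add]
    refine (div_le_div_of_nonneg_left (by positivity) (by positivity) e).trans ?_
    rw [← div_div, div_eq_mul_inv _ (_ ^ _)]
    exact mul_le_mul L.hA (L.inv_pow_le _) (by positivity) (by positivity)
  · have := p.Mo.pot_le (v 0) (v 1)
    rw [Par.cen, sub_sub_cancel_left, abs_neg]
    linarith [L.hP]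

theorem law_aux {γ : ℝ} (h0 : 0 ≤ γ) (h1 : γ ≤ 1) : T.Law (p.aux En γ)
    (sh En (γ + p.τy) (p.cen En 0)) (Real.exp (A + 2 * k * p.R)) (10 / p.l) := by
  have h2 := L.le_exp p.R
  have h3 : p.l ^ 2 * p.τy ≤ 1 := by linarith [p.sq_mul_τy, p.inv_P_le]
  have h4 := p.τy_pos
  refine law_tc h4 p.hl h0 h3 (L.big.trans h2) ?_ ?_
  · have h5 := p.Mo.r_pos
    have e : p.Mo.r ^ (2 * p.R) ≤ p.τy := by
      have : 1 ≤ p.P ^ 4 := one_le_pow₀ (by linarith [p.big])
      unfold Par.τy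
      nlinarith [L.le_δ, pow_pos h5 (2 * p.R)]
    rw [Real.exp_add]
    refine (div_le_div_of_nonneg_left (by positivity) (by positivity) e).trans ?_
    exact mul_le_mul (by linarith [L.big]) (L.inv_pow_le _) (by positivity) (by positivity)
  · have := p.Mo.pot_le 0 0
    have e : p.τy ≤ 1 := by nlinarith [p.hl]
    simp only [Par.cen, sub_sub_cancel_left, abs_neg, Pi.zero_apply]
    linarith [L.hP]

end Led

end Crest.Agent.N334.Md
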