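import Crest.Agent.N334.Md.Sys
import Crest.Agent.N334.Br.Defs

/-!
# Row 334 (helper14): the environment hypotheses of `Br.bpat` and `Br.lcat`
-/

set_option autoImplicit false

open Finset MeasureTheory Function
open scoped ENNReal

namespace Crest.Agent.N334.Md

open I

theorem reg_map {En h D η : ℝ} {ν : Measure ℂ} [IsProbabilityMeasure ν] (hD0 : 0 ≤ D)
    (hD : ν.map Complex.re ≤ ENNReal.ofReal D • (volume : Measure ℝ))
    (hs : ∀ᵐ t ∂ν, |t.re| ≤ h ∧ Sw.ga η t ≤ h + 1) : Reg En h D (ν.map (Br.toT En η)) where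
  prob := inferInstance
  supp := by
    refine (ae_map_iff Br.measurable_toT.aemeasurable (measurableSet_supp En h)).2 ?_
    filter_upwards [hs] with t ht
    rwa [Br.abs_toT_im, Br.toT_re, sub_add_cancel]
  den a l := by
    refine le_trans (le_of_eq ?_) (tl_small hD0 hD En 0 a l)
    have hm : MeasurableSet {z : ℂ | |z.re - a| ≤ l} :=
      measurableSet_le (by fun_prop) measurable_const
    rw [tl, Measure.map_map (measurable_sh _ _) Complex.measurable_re,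
      Measure.map_apply Br.measurable_toT hm,
      Measure.map_apply ((measurable_sh _ _).comp Complex.measurable_re) hm]
    simp [Set.preimage]

namespace Sys

variable {S : Sys} {η : ℝ} {μ : Tor S.g.M → Measure ℂ}

theorem fam_map (hμ : ∀ x, Reg S.En S.h S.D ((μ x).map (Br.toT S.En η))) (l : Tor S.g.M → Bool) :
    S.Fam l fun x => (S.lab.law η μ l x).map (Br.toT S.En η) where
  win x hx := by rw [Lab.law_of_not_act _ _ _ hx.not_act, Br.map_lift_zero, closed_win hx]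
  gen x hx := by
    by_cases h : S.lab.act l x
    · rw [Lab.law_of_act _ _ _ h]; exact hμ x
    · rw [Lab.law_of_not_act _ _ _ h, Br.map_lift_zero]; exact closed_reg hx

theorem req_ctr {y : Tor S.g.M} (hy : S.ce y = y) : S.lab.req y = ball y ((S.pa y).R + 1) := by
  rcases ce_eq_iff.1 hy with h | h
  · rw [pa_ctr₁ h, ← S.hr₁]; exact Geo.req_ctr₁ _ _ _ h
  · rw [pa_ctr₂ h, ← S.hr₂]; exact Geo.req_ctr₂ _ _ _ h

theorem req_other {y : Tor S.g.M} (hy : S.ce y ≠ y) : S.lab.req y = ∅ :=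
  Geo.req_other _ _ _ (fun h => hy (ce_eq_iff.2 (Or.inl h))) fun h => hy (ce_eq_iff.2 (Or.inr h))

theorem can_ctr {y : Tor S.g.M} (hy : S.ce y = y) : S.lab.can y := Or.inr (ce_eq_iff.1 hy)

/-- forcing the labels of one block changes the laws only in this block -/
theorem law_force {y : Tor S.g.M} (hy : S.ce y = y) (lb : Tor S.g.M → Bool) {x : Tor S.g.M}
    (hx : x ∉ ball y ((S.pa y).R + 1)) :
    S.lab.law η μ (Lab.force (S.lab.req y) lb) x = S.lab.law η μ lb x := by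
  rw [req_ctr hy]
  have e : S.lab.act (Lab.force (ball y ((S.pa y).R + 1)) lb) x ↔ S.lab.act lb x := by
    refine and_congr_right fun _ => forall₂_congr fun x' hx' => ?_
    rw [Lab.force_of_notMem]
    intro h
    by_cases hc : S.ce x = x
    · rw [req_ctr hc] at hx'
      have := (of_ball hc (mem_ball.1 hx')).1.symm.trans (of_ball hy (mem_ball.1 h)).1
      exact hx (this ▸ self_mem_ball _ _)
    · rw [req_other hc] at hx'; exact notMem_empty _ hx'
  by_cases h : S.lab.act lb x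
  · rw [Lab.law_of_act _ _ _ h, Lab.law_of_act _ _ _ (e.2 h)]
  · rw [Lab.law_of_not_act _ _ _ h, Lab.law_of_not_act _ _ _ (mt e.1 h), Lab.force_of_notMem _ hx]

theorem henv_bp (hμ : ∀ x, Reg S.En S.h S.D ((μ x).map (Br.toT S.En η))) (h0 : 0 < η) (h1 : η ≤ 1)
    {y : Tor S.g.M} (hy : S.ce y = y) {γ lam Q : ℝ} (hγ : 0 ≤ γ) (hη : η ≤ (S.pa y).δ ^ 2 / 16)
    (hγ' : γ + η ≤ (S.pa y).δ ^ 2) (hlam : S.A + 2 * S.k * ((S.pa y).j + 1) ≤ lam)
    (hQ : Real.exp 1 ≤ Q) (hΛ : ∀ x, η * S.Λ x ≤ 1) (lb : Tor S.g.M → Bool)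
    (hl : S.lab.act lb y) : ∃ E' : T.Env (Tor S.g.M), E'.G = tgraph S.g.M ∧ E'.η = η ∧
      (∀ x, x ≠ y → E'.μ x = (S.lab.law η μ lb x).map (Br.toT S.En η)) ∧
      (E'.r y).re = (S.pa y).cen S.En 0 - S.En ∧
      T.Block E' (tl S.En γ (G.law ((S.pa y).cen S.En 0) (S.pa y).b)) (ball y ((S.pa y).R + 1))
        ((S.pa y).layer y) y (ut (S.pa y).Mo (S.pa y).R y) (fun x => (S.pa y).win (d1 x y))
        (S.pa y).b γ (S.pa y).P (S.pa y).s lam ((S.pa y).j + 1) ∧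
      Real.exp (∑ x ∈ ball y ((S.pa y).R + 1), E'.κ x) ≤ Q ∧ ∀ x, η * E'.Λ x ≤ 1 := by
  have hγ1 : γ ≤ 1 := by
    nlinarith [(S.pa y).δ_le_inv, (S.pa y).inv_P_le, (S.pa y).δ_pos]
  rw [act_ctr hy] at hl
  refine ⟨(fam_map hμ lb).home h0 h1 hy hγ hγ1, rfl, rfl,
    fun x hx => update_of_ne hx _ fun x => (S.lab.law η μ lb x).map (Br.toT S.En η), ?_,
    Fam.block _ h0 h1 hy hγ hγ1 hl hη hγ' hlam,
    (Real.exp_le_exp.2 (Fam.sum_κ _ h0 h1 hy hγ hγ1 hl)).trans hQ, hΛ⟩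
  exact (congrArg Complex.re (update_self ..)).trans (sh_re ..)

theorem henv_lc (hμ : ∀ x, Reg S.En S.h S.D ((μ x).map (Br.toT S.En η))) (h0 : 0 < η) (h1 : η ≤ 1)
    (y : Tor S.g.M) (ρ : ℕ) {lam L : ℝ} (hlam : S.A + 2 * S.k * (S.dep y + 1) ≤ lam)
    (hL : Real.exp (S.A + 2 * S.k * (ρ + S.dep y : ℕ)) ≤ L) (hΛ : ∀ x, η * S.Λ x ≤ 1)
    (lb : Tor S.g.M → Bool) : ∃ E' : T.Env (Tor S.g.M), E'.G = tgraph S.g.M ∧ E'.η = η ∧
      (∀ x, E'.μ x = (S.lab.law η μ (Lab.force (S.lab.req y) lb) x).map (Br.toT S.En η)) ∧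
      (∀ x ∈ T.ball (tgraph S.g.M) y ρ,
        T.U2 ((S.lab.law η μ lb x).map (Br.toT S.En η)) (E'.r x) (10 * L ^ 3) ∧
          E'.Λ x ≤ 10 * L ^ 3) ∧ E'.Grow y lam ∧ ∀ x, η * E'.Λ x ≤ 1 := by
  refine ⟨(fam_map hμ _).env h0 h1, rfl, rfl, fun _ => rfl, fun x hx => ?_, grow rfl rfl y hlam, hΛ⟩
  rw [ball_tor] at hx
  have e := (Λ_le hx).trans hL
  refine ⟨(fam_map hμ lb).u2 (fam_map hμ _) x e, e.trans ?_⟩
  have e1 : 1 ≤ L := by linarith [((fam_map hμ lb).law x).big]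
  nlinarith [le_self_pow₀ e1 (n := 3) (by norm_num)]

theorem Λ_le_max (x : Tor S.g.M) {r : ℕ} (h1 : S.p₁.R ≤ r) (h2 : S.p₂.R ≤ r) :
    S.Λ x ≤ Real.exp (S.A + 2 * S.k * r) := by
  have := S.L₁.k_nonneg
  have e : S.dep x ≤ r := by unfold dep pa; split_ifs <;> omega
  unfold Λ
  gcongr

theorem den_le (x : Tor S.g.M) (l : Bool) (a : ℝ) {r : ℕ} (h1 : S.p₁.R ≤ r) (h2 : S.p₂.R ≤ r) :
    (S.lab.site x).den l a ≤ Real.exp (S.A + 2 * S.k * r) := by
  have hh := S.h_pos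
  have hD := S.L₁.D_nonneg
  have e0 : S.D ≤ Real.exp (S.A + 2 * S.k * r) := by
    refine le_trans ?_ (S.hA.trans (S.L₁.le_exp r))
    nlinarith [abs_nonneg S.En, mul_nonneg (sq_nonneg (2 * S.h + 1)) hD]
  have e1 : 2 * ud S.h a ≤ S.D := by
    refine le_trans ?_ S.hD
    rw [show S.h⁻¹ = 2 * (1 / (2 * S.h)) by field_simp]
    linarith [ud_le S.h a hh]
  cases l
  · exact ((S.lab.site x).rd_le a).trans (e1.trans e0)
  by_cases h : d1 x (S.ce x) ≤ (S.pa x).R + 1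
  · rw [site_in h, Site.den, if_pos rfl]
    by_cases e : off (S.ce x) x = 0
    · rw [e, Led.site_zero]
      exact (G.lawD_le _ (S.pa x).b_pos a).trans
        (le_trans (by rw [one_div]; exact (S.led x).hD) e0)
    · rw [Led.site_wd _ e]
      refine (tcd_le ((S.pa x).τ_pos _) (S.pa x).hl a).trans (le_trans ?_ (Λ_le_max x h1 h2))
      have e2 := ((S.led x).law_win (off (S.ce x) x)).sig
      rw [sh_im, zero_add, abs_neg, abs_of_pos ((S.pa x).τ_pos _)] at e2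
      exact inv_le_of_inv_le₀ (Real.exp_pos _) e2
  · rw [in_iff, not_or] at h
    have e : S.lab.site x = Site.triv S.h_pos := Geo.site_other _ _ _ h.1 h.2
    rw [e, Site.triv_den]
    linarith [ud_nonneg hh a]

end Sys

end Crest.Agent.N334.Md
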