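import Crest.Agent.N334.Md.Obs2

/-!
# Row 334 (helper14): the separable mode `u(n,m) = r^(|n|+|m|) cos(p n) (±1)^m`

`exists_mode`: for every `|E| < 4 + h` there is a mode whose potential `E' - pot` stays in
`[-h+μ, h-μ]` for all `E'` near `E`.  `Mode.obs_cut`: OBS in the diamond `|n|+|m| ≤ R`.
-/

set_option autoImplicit false

namespace Crest.Agent.N334.Md

/-- a separable decaying mode -/
structure Mode where
  a : ℤ → ℝ
  b : ℤ → ℝ
  r : ℝ
  c : ℝ
  y : ℝ
  s : ℝ
  P : ℝ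
  Da : Dec a r c
  Db : Dec b r 1
  r_lt : r < 1
  hy : 1 ≤ |y|
  hs0 : 0 < s
  hs1 : s ≤ 1
  hs : s ≤ |y - y⁻¹|
  hβ : ∀ m, m ≠ 0 → al b m = y + y⁻¹
  hβ0 : al b 0 = 2 * y⁻¹
  hP : ∀ n m, |al a n + al b m| ≤ P

namespace Mode

variable (M : Mode)

/-- the mode -/
def u (n m : ℤ) : ℝ := M.a n * M.b m

/-- `(A u) / u` -/
noncomputable def pot (n m : ℤ) : ℝ := al M.a n + al M.b m

/-- the constant of OBS -/
noncomputable def K : ℝ := 288 * (M.P + 4) / (M.s * M.c ^ 2)

theorem r_pos : 0 < M.r := M.Da.r_pos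
theorem c_pos : 0 < M.c := M.Da.c_pos
theorem c_le : M.c ≤ 1 := M.Da.c_le
theorem P_nonneg : 0 ≤ M.P := (abs_nonneg _).trans (M.hP 0 0)
theorem pot_le (n m : ℤ) : |M.pot n m| ≤ M.P := M.hP n m
theorem K_pos : 0 < M.K := by
  have := M.P_nonneg; have := M.hs0; have := M.c_pos
  unfold K; positivity

theorem u_zero : M.u 0 0 = 1 := by simp [u, M.Da.zero, M.Db.zero]

theorem u_le (n m : ℤ) : |M.u n m| ≤ M.r ^ (n.natAbs + m.natAbs) := by
  rw [u, abs_mul, pow_add, M.Da.natAbs n, M.Db.natAbs m]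
  exact mul_le_mul (M.Da.ub _) (M.Db.ub _) (abs_nonneg _) (pow_pos M.r_pos _).le

theorem le_u (n m : ℤ) : M.c * M.r ^ (n.natAbs + m.natAbs) ≤ |M.u n m| := by
  rw [u, abs_mul, pow_add, M.Da.natAbs n, M.Db.natAbs m, ← mul_assoc]
  have := M.Db.lb m.natAbs
  rw [one_mul] at this
  exact mul_le_mul (M.Da.lb _) this (pow_pos M.r_pos _).le (abs_nonneg _)

theorem harm (n m : ℤ) :
    M.u (n + 1) m + M.u (n - 1) m + M.u n (m + 1) + M.u n (m - 1) = M.pot n m * M.u n m := by
  have h1 := M.Da.al_mul n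
  have h2 := M.Db.al_mul m
  unfold u pot
  linear_combination (-M.b m) * h1 - M.a n * h2

/-- OBS in the diamond -/
theorem obs_cut (φ : ℤ → ℤ → ℂ) (R : ℕ) (G : ℝ) (hG0 : 0 ≤ G)
    (h1 : ∀ n m : ℤ, |n| + |m| < R → ‖φ (n + 1) m + φ (n - 1) m + φ n (m + 1) + φ n (m - 1) -
      M.pot n m * φ n m‖ ≤ G)
    (h2 : ∀ n m : ℤ, |n| + |m| ≤ R → R ≤ |n| + |m| + 1 → ‖φ n m‖ ≤ G)
    (n m : ℤ) (hnm : |n| + |m| ≤ R) :
    ‖φ n m - φ 0 0 * M.u n m‖ ≤ M.K * (R + 1) ^ 7 * G := by
  have hP := M.P_nonneg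
  set ψ : ℤ → ℤ → ℂ := fun n m => if |n| + |m| ≤ R then φ n m else 0 with hψ
  have hb : ∀ n m : ℤ, R ≤ |n| + |m| + 1 → ‖ψ n m‖ ≤ G := fun n m h => by
    simp only [hψ]
    split_ifs with h'
    · exact h2 n m h' h
    · simpa using hG0
  have a1 : ∀ n : ℤ, |n + 1| ≤ |n| + 1 ∧ |n| ≤ |n + 1| + 1 := fun n => by
    constructor <;> (simp only [abs]; omega)
  have a2 : ∀ n : ℤ, |n - 1| ≤ |n| + 1 ∧ |n| ≤ |n - 1| + 1 := fun n => by
    constructor <;> (simp only [abs]; omega)
  have := obs M.Da M.Db M.y M.s M.hy M.hs0 M.hs1 M.hs M.hβ M.hβ0 ψ R ((M.P + 4) * G)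
    (by positivity) (fun n m h => by
      have := abs_nonneg n; have := abs_nonneg m
      simp only [hψ]; rw [if_neg (by omega)])
    (fun n m => by
      have := a1 n; have := a2 n; have := a1 m; have := a2 m
      by_cases h : |n| + |m| < R
      · simp only [hψ]
        rw [if_pos (by omega), if_pos (by omega), if_pos (by omega), if_pos (by omega),
          if_pos (by omega)]
        exact (h1 n m h).trans (by nlinarith)
      · have e1 := hb (n + 1) m (by omega)
        have e2 := hb (n - 1) m (by omega)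
        have e3 := hb n (m + 1) (by omega)
        have e4 := hb n (m - 1) (by omega)
        have e5 := hb n m (by omega)
        refine (norm_sub_le _ _).trans ?_
        rw [norm_mul, Complex.norm_real, Real.norm_eq_abs]
        have e6 := mul_le_mul (M.hP n m) e5 (norm_nonneg _) hP
        have e7 := norm_add_le (ψ (n + 1) m + ψ (n - 1) m + ψ n (m + 1)) (ψ n (m - 1))
        have e8 := norm_add_le (ψ (n + 1) m + ψ (n - 1) m) (ψ n (m + 1))
        have e9 := norm_add_le (ψ (n + 1) m) (ψ (n - 1) m)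
        linarith) n m (by have := abs_nonneg m; omega) (by have := abs_nonneg n; omega)
  simp only [hψ] at this
  rw [if_pos hnm, if_pos (by simp)] at this
  refine this.trans (le_of_eq ?_)
  unfold K
  ring

end Mode

/-- `r^|n| cos (p n)` -/
noncomputable def md (r p : ℝ) (n : ℤ) : ℝ := r ^ n.natAbs * Real.cos (p * n)

theorem md_dec {r p c : ℝ} (hr : 0 < r) (hr1 : r ≤ 1) (hc : 0 < c)
    (h : ∀ n : ℕ, c ≤ |Real.cos (p * n)|) : Dec (md r p) r c where
  r_pos := hr
  r_le := hr1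
  c_pos := hc
  even n := by simp [md]
  zero := by simp [md]
  ub n := by
    simp only [md, Int.natAbs_natCast, abs_mul, abs_of_pos (pow_pos hr n)]
    exact mul_le_of_le_one_right (pow_pos hr n).le (Real.abs_cos_le_one _)
  lb n := by
    simp only [md, Int.natAbs_natCast, abs_mul, abs_of_pos (pow_pos hr n), Int.cast_natCast]
    rw [mul_comm]
    exact mul_le_mul_of_nonneg_left (h n) (pow_pos hr n).le

theorem md_al_zero (r p : ℝ) : al (md r p) 0 = 2 * r * Real.cos p := by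
  simp [al, md]; ring

theorem md_al_succ {r p : ℝ} (hr : 0 < r) (n : ℕ) : al (md r p) ((n + 1 : ℕ) : ℤ) =
    (r * Real.cos (p * (n + 1) + p) + r⁻¹ * Real.cos (p * (n + 1) - p)) /
      Real.cos (p * (n + 1)) := by
  unfold al md
  rw [show ((n + 1 : ℕ) : ℤ) + 1 = ((n + 2 : ℕ) : ℤ) by push_cast; ring,
    show ((n + 1 : ℕ) : ℤ) - 1 = (n : ℤ) by push_cast; ring]
  simp only [Int.natAbs_natCast, Int.cast_natCast]
  push_cast
  rw [show p * (n + 2) = p * (n + 1) + p by ring, show p * n = p * (n + 1) - p by ring]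
  by_cases h : Real.cos (p * (n + 1)) = 0
  · simp [h]
  · field_simp; ring

theorem md_al_near {r p c : ℝ} (hr : 0 < r) (hr1 : r ≤ 1) (hc : 0 < c)
    (h : ∀ n : ℕ, c ≤ |Real.cos (p * n)|) (n : ℤ) :
    |al (md r p) n - 2 * Real.cos p| ≤ (r⁻¹ - r) / c := by
  have D := md_dec hr hr1 hc h
  have hc1 := D.c_le
  have hi : 1 ≤ r⁻¹ := one_le_inv₀ hr |>.2 hr1
  have key : ∀ n : ℕ, |al (md r p) n - 2 * Real.cos p| ≤ (r⁻¹ - r) / c := by
    intro n
    cases n with
    | zero =>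
      rw [Nat.cast_zero, md_al_zero, le_div_iff₀ hc,
        show 2 * r * Real.cos p - 2 * Real.cos p = -(2 * (1 - r)) * Real.cos p by ring, abs_mul,
        abs_neg, abs_of_nonneg (by linarith)]
      have e1 := Real.abs_cos_le_one p
      have e2 : 2 * (1 - r) ≤ r⁻¹ - r := by
        have : r * r⁻¹ = 1 := mul_inv_cancel₀ hr.ne'
        nlinarith
      have e3 : |Real.cos p| * c ≤ 1 := mul_le_one₀ e1 hc.le hc1
      nlinarith
    | succ n =>
      have e0 := h (n + 1)
      push_cast at e0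
      have e1 : Real.cos (p * (n + 1)) ≠ 0 := abs_pos.1 (hc.trans_le e0)
      have e2 : al (md r p) ((n + 1 : ℕ) : ℤ) - 2 * Real.cos p =
          (-(1 - r) * Real.cos (p * (n + 1) + p) + (r⁻¹ - 1) * Real.cos (p * (n + 1) - p)) /
            Real.cos (p * (n + 1)) := by
        rw [md_al_succ hr, Real.cos_add, Real.cos_sub]; field_simp; ring
      rw [e2, abs_div]
      refine div_le_div₀ (by linarith) ((abs_add_le _ _).trans ?_) hc e0
      rw [abs_mul, abs_mul, abs_neg, abs_of_nonneg (by linarith : 0 ≤ 1 - r),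
        abs_of_nonneg (by linarith : 0 ≤ r⁻¹ - 1)]
      have := Real.abs_cos_le_one (p * (n + 1) + p)
      have := Real.abs_cos_le_one (p * (n + 1) - p)
      nlinarith
  rcases Int.natAbs_eq n with e | e
  · rw [e]; exact key _
  · rw [e, D.al_neg]; exact key _

/-- rational momenta with odd denominator have no small cosines -/
theorem exists_p (t ε : ℝ) (ht : |t| ≤ 2) (hε : 0 < ε) :
    ∃ p c : ℝ, 0 < c ∧ |2 * Real.cos p - t| ≤ ε ∧ ∀ n : ℕ, c ≤ |Real.cos (p * n)| := by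
  have hπ := Real.pi_pos
  obtain ⟨k, hk⟩ := exists_nat_gt (4 * Real.pi / ε)
  set q : ℕ := 2 * k + 1 with hq
  have hq0 : (0 : ℝ) < q := by positivity
  set p0 := Real.arccos (t / 2) with hp0
  have hcos : Real.cos p0 = t / 2 :=
    Real.cos_arccos (by linarith [(abs_le.1 ht).1]) (by linarith [(abs_le.1 ht).2])
  set j : ℤ := ⌊p0 * q / (2 * Real.pi)⌋ with hj
  set p : ℝ := 2 * Real.pi * j / q with hp
  have hne : ∀ n : ℕ, Real.cos (p * n) ≠ 0 := by
    intro n h
    obtain ⟨l, hl⟩ := Real.cos_eq_zero_iff.1 h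
    have : (4 * (j * n) : ℝ) = (2 * l + 1) * (2 * k + 1) := by
      rw [hp, hq] at hl
      push_cast at hl
      field_simp at hl
      linarith
    have h2 : (4 * (j * n) : ℤ) = (2 * l + 1) * (2 * k + 1) := by exact_mod_cast this
    have h3 : (2 * l + 1) * (2 * (k : ℤ) + 1) = 2 * (2 * l * k + l + k) + 1 := by ring
    omega
  obtain ⟨n0, -, hmin⟩ := Finset.exists_min_image (Finset.range q)
    (fun n : ℕ => |Real.cos (p * n)|) ⟨0, by simp [hq]⟩
  refine ⟨p, |Real.cos (p * n0)|, abs_pos.2 (hne n0), ?_, fun n => ?_⟩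
  · have e1 : |Real.cos p - Real.cos p0| ≤ |p - p0| := Real.abs_cos_sub_cos_le p p0
    have e2 : |p - p0| ≤ 2 * Real.pi / q := by
      have f1 := Int.floor_le (p0 * q / (2 * Real.pi))
      have f2 := Int.lt_floor_add_one (p0 * q / (2 * Real.pi))
      rw [← hj] at f1 f2
      rw [le_div_iff₀ (by positivity)] at f1
      rw [div_lt_iff₀ (by positivity)] at f2
      have : p - p0 = (2 * Real.pi * j - p0 * q) / q := by rw [hp]; field_simp
      rw [this, abs_div, abs_of_pos hq0]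
      gcongr
      rw [abs_le]; constructor <;> nlinarith
    have e3 : 2 * Real.pi / q ≤ ε / 2 := by
      rw [div_lt_iff₀ hε] at hk
      rw [div_le_iff₀ hq0, hq]; push_cast
      nlinarith [Nat.cast_nonneg (α := ℝ) k]
    rw [show 2 * Real.cos p - t = 2 * (Real.cos p - Real.cos p0) by rw [hcos]; ring, abs_mul]
    norm_num
    linarith
  · have e : p * n = p * (n % q : ℕ) + (j * (n / q : ℕ) : ℤ) * (2 * Real.pi) := by
      have : (n : ℝ) = (n % q : ℕ) + q * (n / q : ℕ) := by exact_mod_cast (Nat.mod_add_div n q).symm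
      generalize n % q = x at this ⊢
      generalize n / q = z at this ⊢
      rw [this, hp]; push_cast; field_simp
    rw [e, Real.cos_add_int_mul_two_pi]
    exact hmin _ (Finset.mem_range.2 (Nat.mod_lt _ (by omega)))

theorem exists_mode {h E : ℝ} (hh : 0 < h) (hE : |E| < 4 + h) :
    ∃ (M : Mode) (μ : ℝ), 0 < μ ∧
      ∀ (E' : ℝ) (n m : ℤ), |E' - E| ≤ μ → |E' - M.pot n m| ≤ h - μ := by
  obtain ⟨p2, σ, t, hσ, hσ', h2, ht, htE⟩ : ∃ p2 σ t : ℝ, Real.cos p2 = σ ∧ σ * σ = 1 ∧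
      (∀ x, Real.cos (x + p2) = σ * Real.cos x ∧ Real.cos (x - p2) = σ * Real.cos x) ∧ |t| ≤ 2 ∧
      |E - 2 * σ - t| < h := by
    have := abs_lt.1 hE
    by_cases h0 : 0 ≤ E
    · refine ⟨0, 1, min (E - 2) 2, by simp, by simp, by simp, ?_, ?_⟩
      · rw [abs_le]; exact ⟨le_min (by linarith) (by norm_num), min_le_right _ _⟩
      · rcases le_total (E - 2) 2 with e | e
        · rw [min_eq_left e]; simpa using hh
        · rw [min_eq_right e, abs_lt]; constructor <;> linarith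
    · refine ⟨Real.pi, -1, max (E + 2) (-2), by simp, by simp, by simp, ?_, ?_⟩
      · rw [abs_le]; exact ⟨le_max_right _ _, max_le (by linarith) (by norm_num)⟩
      · rcases le_total (E + 2) (-2) with e | e
        · rw [max_eq_right e, abs_lt]; constructor <;> linarith
        · rw [max_eq_left e]; simpa using hh
  set μ := (h - |E - 2 * σ - t|) / 5 with hμ
  have hμ0 : 0 < μ := by rw [hμ]; linarith
  obtain ⟨p, c, hc, hp, hcp⟩ := exists_p t μ ht hμ0
  have hc1 : c ≤ 1 := (hcp 0).trans (Real.abs_cos_le_one _)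
  have hσ1 : |σ| = 1 := by
    rcases mul_self_eq_one_iff.1 hσ' with e | e <;> simp [e]
  have hσ0 : σ ≠ 0 := by rintro rfl; simp at hσ'
  have hb : ∀ n : ℕ, 1 ≤ |Real.cos (p2 * n)| := by
    intro n
    induction n with
    | zero => simp
    | succ n ih =>
      push_cast
      rw [mul_add, mul_one, (h2 _).1, abs_mul, hσ1, one_mul]; exact ih
  set e := min (μ * c / 3) (1 / 2) with he
  have he0 : 0 < e := lt_min (by positivity) (by norm_num)
  have he1 : e ≤ 1 / 2 := min_le_right _ _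
  have he2 : e ≤ μ * c / 3 := min_le_left _ _
  set r := 1 - e with hr
  have hr0 : 0 < r := by linarith
  have hr1 : r ≤ 1 := by linarith
  have hri : r * r⁻¹ = 1 := mul_inv_cancel₀ hr0.ne'
  have hi : 1 ≤ r⁻¹ := one_le_inv₀ hr0 |>.2 hr1
  have hi2 : r⁻¹ ≤ 2 := by nlinarith
  have hd : r⁻¹ - r ≤ μ * c := by nlinarith
  have hA := md_al_near hr0 hr1 hc hcp
  have hB := md_al_near hr0 hr1 one_pos hb
  have hA' : (r⁻¹ - r) / c ≤ μ := by rw [div_le_iff₀ hc]; exact hd
  have hB' : (r⁻¹ - r) / 1 ≤ μ := by rw [div_one]; nlinarith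
  have hpot : ∀ (E' : ℝ) (n m : ℤ), |E' - E| ≤ μ →
      |E' - (al (md r p) n + al (md r p2) m)| ≤ h - μ := by
    intro E' n m hE'
    have f1 := abs_le.1 ((hA n).trans hA')
    have f2 := abs_le.1 ((hB m).trans hB')
    have f3 := abs_le.1 hp
    have f4 := abs_le.1 hE'
    have f5 := le_abs_self (E - 2 * σ - t)
    have f6 := neg_abs_le (E - 2 * σ - t)
    rw [hσ] at f2
    rw [abs_le]; constructor <;> linarith
  have hyi : (σ * r⁻¹)⁻¹ = σ * r := by
    apply inv_eq_of_mul_eq_one_right; linear_combination r * r⁻¹ * hσ' + hri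
  have hsucc : ∀ n : ℕ, al (md r p2) ((n + 1 : ℕ) : ℤ) = σ * r⁻¹ + σ * r := by
    intro n
    have := hb (n + 1)
    push_cast at this
    have e1 : Real.cos (p2 * (n + 1)) ≠ 0 := abs_pos.1 (one_pos.trans_le this)
    rw [md_al_succ hr0, (h2 _).1, (h2 _).2]; field_simp; ring
  refine ⟨⟨md r p, md r p2, r, c, σ * r⁻¹, e, |E| + h, md_dec hr0 hr1 hc hcp,
    md_dec hr0 hr1 one_pos hb, by linarith, ?_, he0, by linarith, ?_, ?_, ?_, ?_⟩, μ, hμ0, hpot⟩
  · rw [abs_mul, hσ1, one_mul, abs_of_pos (by positivity)]; exact hi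
  · rw [hyi, ← mul_sub, abs_mul, hσ1, one_mul, abs_of_nonneg (by linarith)]; linarith
  · intro m hm
    rw [hyi]
    obtain ⟨n, hn⟩ : ∃ n : ℕ, m.natAbs = n + 1 := ⟨m.natAbs - 1, by omega⟩
    rcases Int.natAbs_eq m with e | e
    · rw [e, hn]; exact hsucc n
    · rw [e, (md_dec hr0 hr1 one_pos hb).al_neg, hn]; exact hsucc n
  · rw [hyi, md_al_zero, hσ]; ring
  · intro n m
    have f1 := abs_le.1 (hpot E n m (by simpa using hμ0.le))
    have f2 := le_abs_self E
    have f3 := neg_abs_le E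
    rw [abs_le]; constructor <;> linarith

end Crest.Agent.N334.Md
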