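import Mathlib

/-!
# Row 334 (helper14): one-dimensional lemmas for the observability lemma OBS (note 279)

`wr`: Wronskian lemma for a nowhere vanishing decaying solution `a`;
`scal`: finitely supported solutions of the free recurrence with one defect.
-/

set_option autoImplicit false

namespace Crest.Agent.N334.Md

/-- an even, nowhere vanishing sequence that decays like `r ^ |n|` -/
structure Dec (a : ℤ → ℝ) (r c : ℝ) : Prop where
  r_pos : 0 < r
  r_le : r ≤ 1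
  c_pos : 0 < c
  even : ∀ n, a (-n) = a n
  zero : a 0 = 1
  ub : ∀ n : ℕ, |a n| ≤ r ^ n
  lb : ∀ n : ℕ, c * r ^ n ≤ |a n|

/-- the potential for which `a` is a null vector -/
noncomputable def al (a : ℤ → ℝ) (n : ℤ) : ℝ := (a (n + 1) + a (n - 1)) / a n

variable {a : ℤ → ℝ} {r c : ℝ}

theorem Dec.pos (D : Dec a r c) (n : ℕ) : 0 < |a n| :=
  lt_of_lt_of_le (mul_pos D.c_pos (pow_pos D.r_pos n)) (D.lb n)

theorem Dec.natAbs (D : Dec a r c) (n : ℤ) : a n = a (n.natAbs : ℕ) := by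
  rcases Int.natAbs_eq n with h | h
  · rw [← h]
  · conv_lhs => rw [h]
    exact D.even _

theorem Dec.ne (D : Dec a r c) (n : ℤ) : a n ≠ 0 := by
  rw [D.natAbs n]; exact abs_pos.1 (D.pos _)

theorem Dec.le_one (D : Dec a r c) (n : ℤ) : |a n| ≤ 1 := by
  rw [D.natAbs n]; exact (D.ub _).trans (pow_le_one₀ D.r_pos.le D.r_le)

theorem Dec.c_le (D : Dec a r c) : c ≤ 1 := by
  have := D.lb 0
  simpa [D.zero] using this

theorem Dec.al_neg (D : Dec a r c) (n : ℤ) : al a (-n) = al a n := by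
  unfold al
  rw [show -n + 1 = -(n - 1) by ring, show -n - 1 = -(n + 1) by ring, D.even, D.even, D.even,
    add_comm]

theorem Dec.al_mul (D : Dec a r c) (n : ℤ) : al a n * a n = a (n + 1) + a (n - 1) := by
  unfold al; field_simp [D.ne n]

theorem wr_half (D : Dec a r c) (ψ : ℤ → ℂ) (N : ℕ) (F : ℝ) (hF0 : 0 ≤ F)
    (hF : ∀ n : ℕ, 1 ≤ n → n ≤ N → ‖ψ (n + 1) + ψ (n - 1) - al a n * ψ n‖ ≤ F)
    (hW : (a N : ℂ) * ψ (N + 1) = a (N + 1) * ψ N) :
    ∀ n : ℕ, n ≤ N → ‖ψ n - ψ 0 * a n‖ ≤ N ^ 2 * F / c ^ 2 := by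
  have hr := D.r_pos
  have hc := D.c_pos
  set W : ℕ → ℂ := fun n => (a n : ℂ) * ψ (n + 1) - a (n + 1) * ψ n with hWdef
  have h1 : ∀ j n : ℕ, n + j = N → ‖W n‖ ≤ j * F * r ^ (n + 1) := by
    intro j
    induction j with
    | zero =>
      intro n hn
      have : n = N := by simpa using hn
      subst this
      simp [hWdef, hW]
    | succ j ih =>
      intro n hn
      have h2 := ih (n + 1) (by omega)
      have h3 := hF (n + 1) (by omega) (by omega)
      have h4 : ((al a ((n + 1 : ℕ) : ℤ) : ℝ) : ℂ) * (a ((n + 1 : ℕ) : ℤ) : ℂ) =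
          a (((n + 1 : ℕ) : ℤ) + 1) + a (((n + 1 : ℕ) : ℤ) - 1) := by
        exact_mod_cast D.al_mul _
      have h5 : W n = W (n + 1) - (a ((n + 1 : ℕ) : ℤ) : ℂ) *
          (ψ (((n + 1 : ℕ) : ℤ) + 1) + ψ (((n + 1 : ℕ) : ℤ) - 1) -
            al a ((n + 1 : ℕ) : ℤ) * ψ ((n + 1 : ℕ) : ℤ)) := by
        simp only [hWdef]
        push_cast at h4 ⊢
        simp only [add_sub_cancel_right] at h4 ⊢
        linear_combination (-ψ (n + 1)) * h4
      rw [h5]
      refine (norm_sub_le _ _).trans ?_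
      rw [norm_mul, Complex.norm_real, Real.norm_eq_abs]
      have h6 := D.ub (n + 1)
      have h7 : r ^ (n + 1 + 1) ≤ r ^ (n + 1) := pow_le_pow_of_le_one hr.le D.r_le (by omega)
      have h8 : |a ((n + 1 : ℕ) : ℤ)| * ‖ψ (((n + 1 : ℕ) : ℤ) + 1) + ψ (((n + 1 : ℕ) : ℤ) - 1) -
            al a ((n + 1 : ℕ) : ℤ) * ψ ((n + 1 : ℕ) : ℤ)‖ ≤ r ^ (n + 1) * F :=
        mul_le_mul h6 h3 (norm_nonneg _) (by positivity)
      have h9 : (j : ℝ) * F * r ^ (n + 1 + 1) ≤ j * F * r ^ (n + 1) :=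
        mul_le_mul_of_nonneg_left h7 (by positivity)
      push_cast at *
      nlinarith
  have h2 : ∀ n : ℕ, n ≤ N → ‖ψ n - ψ 0 * a n‖ ≤ |a n| * (n * (N * F / (c ^ 2 * r ^ n))) := by
    intro n
    induction n with
    | zero => intro _; simp [D.zero]
    | succ n ih =>
      intro hn
      have h3 := ih (by omega)
      have h4 := h1 (N - n) n (by omega)
      have h5 : ((N - n : ℕ) : ℝ) ≤ N := by exact_mod_cast Nat.sub_le N n
      have hp := D.pos n
      have hp' := D.pos (n + 1)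
      have hid : (a n : ℂ) * (ψ ((n + 1 : ℕ) : ℤ) - ψ 0 * a ((n + 1 : ℕ) : ℤ)) =
          a ((n + 1 : ℕ) : ℤ) * (ψ n - ψ 0 * a n) + W n := by
        simp only [hWdef]; push_cast; ring
      have h6 : |a n| * ‖ψ ((n + 1 : ℕ) : ℤ) - ψ 0 * a ((n + 1 : ℕ) : ℤ)‖ ≤
          |a ((n + 1 : ℕ) : ℤ)| * ‖ψ n - ψ 0 * a n‖ + ‖W n‖ := by
        have := congrArg norm hid
        rw [norm_mul, Complex.norm_real, Real.norm_eq_abs] at this
        rw [this]
        refine (norm_add_le _ _).trans ?_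
        rw [norm_mul, Complex.norm_real, Real.norm_eq_abs]
      set X := N * F / (c ^ 2 * r ^ n) with hX
      have hX0 : 0 ≤ X := by positivity
      have hX1 : X ≤ N * F / (c ^ 2 * r ^ (n + 1)) := by
        apply div_le_div_of_nonneg_left (by positivity) (by positivity)
        exact mul_le_mul_of_nonneg_left (pow_le_pow_of_le_one hr.le D.r_le (by omega))
          (by positivity)
      have h7 : ‖W n‖ ≤ |a n| * (|a ((n + 1 : ℕ) : ℤ)| * X) := by
        have e1 : (N : ℝ) * F * r ^ (n + 1) = (c * r ^ n) * ((c * r ^ (n + 1)) * X) := by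
          rw [hX]; field_simp
        have e2 : (c * r ^ n) * ((c * r ^ (n + 1)) * X) ≤ |a n| * (|a ((n + 1 : ℕ) : ℤ)| * X) :=
          mul_le_mul (D.lb n) (mul_le_mul_of_nonneg_right (D.lb (n + 1)) hX0) (by positivity)
            hp.le
        have e3 : ((N - n : ℕ) : ℝ) * F * r ^ (n + 1) ≤ N * F * r ^ (n + 1) := by gcongr
        linarith
      have h8 : |a n| * ‖ψ ((n + 1 : ℕ) : ℤ) - ψ 0 * a ((n + 1 : ℕ) : ℤ)‖ ≤
          |a n| * (|a ((n + 1 : ℕ) : ℤ)| * ((n + 1) * X)) := by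
        have := mul_le_mul_of_nonneg_left h3 hp'.le
        nlinarith
      have h9 := le_of_mul_le_mul_left h8 hp
      refine h9.trans ?_
      push_cast
      gcongr
  intro n hn
  refine (h2 n hn).trans ?_
  have h3 : |a n| * (n * (N * F / (c ^ 2 * r ^ n))) ≤ r ^ n * (N * (N * F / (c ^ 2 * r ^ n))) := by
    have : (n : ℝ) ≤ N := by exact_mod_cast hn
    gcongr
    exact D.ub n
  refine h3.trans (le_of_eq ?_)
  field_simp

/-- the Wronskian lemma -/
theorem wr (D : Dec a r c) (ψ : ℤ → ℂ) (N : ℕ) (F : ℝ) (hF0 : 0 ≤ F)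
    (hF : ∀ n : ℤ, |n| ≤ N → ‖ψ (n + 1) + ψ (n - 1) - al a n * ψ n‖ ≤ F)
    (hW : (a N : ℂ) * ψ (N + 1) = a (N + 1) * ψ N)
    (hW' : (a N : ℂ) * ψ (-(N + 1)) = a (N + 1) * ψ (-N)) :
    ∀ n : ℤ, |n| ≤ N → ‖ψ n - ψ 0 * a n‖ ≤ N ^ 2 * F / c ^ 2 := by
  intro n hn
  have hn' : n.natAbs ≤ N := by rw [Int.abs_eq_natAbs] at hn; exact_mod_cast hn
  rcases Int.natAbs_eq n with h | h
  · rw [h]
    exact wr_half D ψ N F hF0 (fun m _ hm => hF m (by rw [Nat.abs_cast]; exact_mod_cast hm)) hW _ hn'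
  · have := wr_half D (fun m => ψ (-m)) N F hF0 (fun m _ hm => by
      have := hF (-m) (by rw [abs_neg, Nat.abs_cast]; exact_mod_cast hm)
      rw [D.al_neg, show -(m : ℤ) + 1 = -((m : ℤ) - 1) by ring,
        show -(m : ℤ) - 1 = -((m : ℤ) + 1) by ring, add_comm] at this
      exact this) hW' _ hn'
    rw [h, D.even]
    simpa using this

theorem scal_half (ρ : ℂ) (hρ : 1 ≤ ‖ρ‖) (ψ : ℤ → ℂ) (R : ℕ) (G : ℝ) (hG0 : 0 ≤ G)
    (hs : ∀ m : ℕ, R < m → ψ m = 0)
    (hG : ∀ m : ℕ, 1 ≤ m → ‖ψ (m + 1) + ψ (m - 1) - (ρ + ρ⁻¹) * ψ m‖ ≤ G) :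
    ‖ψ 0 - ρ * ψ 1‖ ≤ (R + 1) * G ∧ (∀ m : ℕ, ‖ψ m‖ ≤ ‖ψ 0‖ + (R + 1) ^ 2 * G) ∧
      (‖ρ‖ = 1 → ‖ψ 0‖ ≤ (R + 1) ^ 2 * G) := by
  have hρ0 : ρ ≠ 0 := by rintro rfl; norm_num at hρ
  have hinv : ‖ρ⁻¹‖ ≤ 1 := by rw [norm_inv]; exact inv_le_one_of_one_le₀ hρ
  set d : ℕ → ℂ := fun m => ψ m - ρ * ψ (m + 1) with hd
  have h1 : ∀ j m : ℕ, R + 1 ≤ m + j → ‖d m‖ ≤ j * G := by
    intro j
    induction j with
    | zero =>
      intro m hm
      have e1 := hs m (by omega)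
      have e2 := hs (m + 1) (by omega)
      push_cast at e2
      simp [hd, e1, e2]
    | succ j ih =>
      intro m hm
      have e1 := ih (m + 1) (by omega)
      have e2 := hG (m + 1) (by omega)
      have e3 : d m = ρ⁻¹ * d (m + 1) + (ψ (((m + 1 : ℕ) : ℤ) + 1) + ψ (((m + 1 : ℕ) : ℤ) - 1) -
          (ρ + ρ⁻¹) * ψ ((m + 1 : ℕ) : ℤ)) := by
        simp only [hd]; push_cast; simp only [add_sub_cancel_right]; field_simp; ring
      rw [e3]
      refine (norm_add_le _ _).trans ?_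
      rw [norm_mul]
      have := mul_le_mul hinv e1 (norm_nonneg _) zero_le_one
      push_cast at *
      linarith
  have h2 : ∀ m, ‖d m‖ ≤ (R + 1) * G := fun m => by
    have := h1 (R + 1) m (by omega); push_cast at this; exact this
  have h3 : ∀ m : ℕ, ‖ψ m‖ ≤ ‖ψ 0‖ + m * ((R + 1) * G) := by
    intro m
    induction m with
    | zero => simp
    | succ m ih =>
      have e : ψ ((m + 1 : ℕ) : ℤ) = ρ⁻¹ * (ψ m - d m) := by
        simp only [hd]; push_cast; field_simp; ring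
      rw [e, norm_mul]
      have e1 := mul_le_mul hinv (norm_sub_le (ψ m) (d m)) (norm_nonneg _) zero_le_one
      have e2 := h2 m
      push_cast
      linarith
  refine ⟨by simpa [hd] using h2 0, fun m => ?_, fun h1ρ => ?_⟩
  · by_cases hm : R < m
    · rw [hs m hm, norm_zero]; positivity
    · have e : (m : ℝ) ≤ R + 1 := by
        have : (m : ℝ) ≤ R := by exact_mod_cast not_lt.1 hm
        linarith
      have := h3 m
      have e2 : (m : ℝ) * ((R + 1) * G) ≤ (R + 1) * ((R + 1) * G) := by gcongr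
      nlinarith
  · have h4 : ∀ j m : ℕ, R + 1 ≤ m + j → ‖ψ m‖ ≤ j * ((R + 1) * G) := by
      intro j
      induction j with
      | zero => intro m hm; rw [hs m (by omega)]; simp
      | succ j ih =>
        intro m hm
        have e1 := ih (m + 1) (by omega)
        have e : ψ m = d m + ρ * ψ ((m + 1 : ℕ) : ℤ) := by simp only [hd]; push_cast; ring
        rw [e]
        refine (norm_add_le _ _).trans ?_
        rw [norm_mul, h1ρ, one_mul]
        have := h2 m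
        push_cast at *
        linarith
    have := h4 (R + 1) 0 (by omega)
    push_cast at this
    nlinarith

theorem real_gap (x y g : ℝ) (hx : 1 ≤ |x|) (hy : 1 ≤ |y|) (h1 : g ≤ |y + y⁻¹ - (x + x⁻¹)|)
    (h2 : g ≤ |y - y⁻¹|) : g ≤ |y - y⁻¹ - (x - x⁻¹)| := by
  have hx0 : x ≠ 0 := by rintro rfl; norm_num at hx
  have hy0 : y ≠ 0 := by rintro rfl; norm_num at hy
  by_cases hxy : 0 < x * y
  · have e1 : y + y⁻¹ - (x + x⁻¹) = (y - x) * (1 - (x * y)⁻¹) := by field_simp; ring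
    have e2 : y - y⁻¹ - (x - x⁻¹) = (y - x) * (1 + (x * y)⁻¹) := by field_simp; ring
    rw [e1, abs_mul] at h1
    rw [e2, abs_mul]
    refine h1.trans (mul_le_mul_of_nonneg_left ?_ (abs_nonneg _))
    have := inv_pos.2 hxy
    rw [abs_of_pos (by linarith : 0 < 1 + (x * y)⁻¹), abs_le]
    constructor <;> linarith
  · refine h2.trans ?_
    have key : ∀ t : ℝ, 1 ≤ t → 0 ≤ t - t⁻¹ := fun t ht => by
      have := inv_le_one_of_one_le₀ ht; linarith
    rcases le_abs'.1 hx with hx | hx <;> rcases le_abs'.1 hy with hy | hy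
    · exact absurd (by nlinarith) hxy
    · have e1 := key (-x) (by linarith)
      have e2 := key y hy
      rw [inv_neg] at e1
      rw [abs_of_nonneg e2, abs_of_nonneg (by linarith)]; linarith
    · have e1 := key (-y) (by linarith)
      have e2 := key x hx
      rw [inv_neg] at e1
      rw [abs_of_nonpos (by linarith), abs_of_nonpos (by linarith)]; linarith
    · exact absurd (by nlinarith) hxy

theorem exists_rho (τ : ℂ) : ∃ ρ : ℂ, 1 ≤ ‖ρ‖ ∧ ρ + ρ⁻¹ = τ := by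
  obtain ⟨z, hz⟩ := IsAlgClosed.exists_pow_nat_eq (τ ^ 2 - 4) (by norm_num : 0 < 2)
  have hm : (τ + z) / 2 * ((τ - z) / 2) = 1 := by linear_combination (-1 / 4 : ℂ) * hz
  by_cases h : 1 ≤ ‖(τ + z) / 2‖
  · exact ⟨_, h, by rw [inv_eq_of_mul_eq_one_right hm]; ring⟩
  · refine ⟨(τ - z) / 2, ?_, by rw [inv_eq_of_mul_eq_one_left hm]; ring⟩
    have h1 := congrArg norm hm
    rw [norm_mul, norm_one] at h1
    have h2 := norm_nonneg ((τ + z) / 2)
    have h3 := norm_nonneg ((τ - z) / 2)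
    by_contra h4
    rw [not_le] at h h4
    nlinarith

/-- finitely supported solutions of the free recurrence with one defect at `0` -/
theorem scal (y lam g : ℝ) (hy : 1 ≤ |y|) (hg : 0 < g) (hg1 : g ≤ 1) (hl : g ≤ |lam|)
    (hs : g ≤ |y - y⁻¹|) (β : ℤ → ℝ) (hβ : ∀ m, m ≠ 0 → β m = y + y⁻¹) (hβ0 : β 0 = 2 * y⁻¹)
    (ψ : ℤ → ℂ) (R : ℕ) (G : ℝ) (hG0 : 0 ≤ G) (hsupp : ∀ m : ℤ, (R : ℤ) < |m| → ψ m = 0)
    (hG : ∀ m, ‖ψ (m + 1) + ψ (m - 1) - β m * ψ m + lam * ψ m‖ ≤ G) (m : ℤ) :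
    ‖ψ m‖ ≤ 4 * (R + 1) ^ 2 * G / g := by
  obtain ⟨ρ, hρ, hτ⟩ := exists_rho ((y + y⁻¹ - lam : ℝ) : ℂ)
  have hρ0 : ρ ≠ 0 := by rintro rfl; norm_num at hρ
  have A := scal_half ρ hρ ψ R G hG0
    (fun m hm => hsupp m (by rw [Nat.abs_cast]; exact_mod_cast hm)) (fun m hm => by
      have := hG m
      rw [hβ m (by omega)] at this
      rw [hτ]
      convert this using 2
      push_cast; ring)
  have B := scal_half ρ hρ (fun m => ψ (-m)) R G hG0
    (fun m hm => hsupp _ (by rw [abs_neg, Nat.abs_cast]; exact_mod_cast hm)) (fun m hm => by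
      have := hG (-m)
      rw [hβ _ (by omega), show -(m : ℤ) + 1 = -((m : ℤ) - 1) by ring,
        show -(m : ℤ) - 1 = -((m : ℤ) + 1) by ring] at this
      rw [hτ]
      convert this using 2
      push_cast; ring)
  simp only [neg_zero] at B
  have hR : (1 : ℝ) ≤ R + 1 := by have := Nat.cast_nonneg (α := ℝ) R; linarith
  have hX : (R + 1 : ℝ) * G ≤ (R + 1) ^ 2 * G := by
    apply mul_le_mul_of_nonneg_right _ hG0; nlinarith
  have hX' : G ≤ (R + 1) * G := by nlinarith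
  have h0 : g * ‖ψ 0‖ ≤ 3 * ((R + 1) ^ 2 * G) := by
    rcases hρ.eq_or_lt with h1 | h1
    · have := A.2.2 h1.symm
      have := norm_nonneg (ψ 0)
      nlinarith
    · have him : ρ.im = 0 := by
        have e1 := congrArg Complex.im hτ
        rw [Complex.add_im, Complex.inv_im, Complex.ofReal_im, Complex.normSq_eq_norm_sq] at e1
        have e2 : 1 < ‖ρ‖ ^ 2 := by nlinarith
        have e3 : ρ.im * (‖ρ‖ ^ 2 - 1) = 0 := by field_simp at e1; linarith
        rcases mul_eq_zero.1 e3 with e | e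
        · exact e
        · linarith
      obtain ⟨x, rfl⟩ : ∃ x : ℝ, ρ = x := ⟨ρ.re, by apply Complex.ext <;> simp [him]⟩
      have hx : 1 ≤ |x| := by simpa using hρ
      have hτ' : x + x⁻¹ = y + y⁻¹ - lam := by exact_mod_cast hτ
      have hgap := real_gap x y g hx hy (by rw [hτ']; simpa using hl) hs
      have hinv : ‖(x : ℂ)⁻¹‖ ≤ 1 := by rw [norm_inv]; exact inv_le_one_of_one_le₀ hρ
      have e0 := hG 0
      rw [hβ0] at e0
      have hlam : (lam : ℂ) = (y : ℂ) + (y : ℂ)⁻¹ - ((x : ℂ) + (x : ℂ)⁻¹) := by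
        rw [hτ]; push_cast; ring
      have e : ((y - y⁻¹ - (x - x⁻¹) : ℝ) : ℂ) * ψ 0 =
          (ψ (0 + 1) + ψ (0 - 1) - ((2 * y⁻¹ : ℝ) : ℂ) * ψ 0 + lam * ψ 0) +
            (x : ℂ)⁻¹ * ((ψ 0 - x * ψ 1) + (ψ 0 - x * ψ (-1))) := by
        rw [hlam]; push_cast; field_simp; ring
      have e1 := congrArg norm e
      rw [norm_mul, Complex.norm_real, Real.norm_eq_abs] at e1
      have e2 := norm_add_le (ψ (0 + 1) + ψ (0 - 1) - ((2 * y⁻¹ : ℝ) : ℂ) * ψ 0 + lam * ψ 0)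
        ((x : ℂ)⁻¹ * ((ψ 0 - x * ψ 1) + (ψ 0 - x * ψ (-1))))
      rw [norm_mul] at e2
      have e3 := mul_le_mul hinv (norm_add_le (ψ 0 - x * ψ 1) (ψ 0 - x * ψ (-1))) (norm_nonneg _)
        zero_le_one
      have e4 := mul_le_mul_of_nonneg_right hgap (norm_nonneg (ψ 0))
      have := A.1
      have := B.1
      linarith
  have hm : ‖ψ m‖ ≤ ‖ψ 0‖ + (R + 1) ^ 2 * G := by
    rcases Int.natAbs_eq m with h | h
    · rw [h]; exact A.2.1 _
    · rw [h]; exact B.2.1 _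
  rw [le_div_iff₀ hg]
  have : 0 ≤ (R + 1 : ℝ) ^ 2 * G := by positivity
  nlinarith

end Crest.Agent.N334.Md
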