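import Crest.Agent.N334.Md.Obs1

/-!
# Row 334 (helper14): the observability lemma OBS (note 279) on `ℤ × ℤ`

`obs`: a function supported in the box `[-R,R]²` that almost solves the separable equation
`L φ = 0` is almost a multiple of the mode `a(n) b(m)`.
-/

set_option autoImplicit false

open Finset

namespace Crest.Agent.N334.Md

theorem exists_eig (I : Finset ℤ) (J : ℤ → ℤ → ℝ) (hJ : ∀ n m, J n m = J m n) :
    ∃ (v : I → ℤ → ℝ) (lam : I → ℝ),
      (∀ i, ∀ n ∈ I, ∑ m ∈ I, J n m * v i m = lam i * v i n) ∧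
      (∀ n ∈ I, ∀ m ∈ I, ∑ i, v i n * v i m = if n = m then 1 else 0) := by
  classical
  let M : Matrix I I ℝ := Matrix.of fun n m => J n m
  have hM : M.IsHermitian := by
    ext n m; simp [M, Matrix.conjTranspose_apply, hJ n m]
  refine ⟨fun i n => if h : n ∈ I then hM.eigenvectorBasis i ⟨n, h⟩ else 0, hM.eigenvalues,
    fun i n hn => ?_, fun n hn m hm => ?_⟩
  · have := congrFun (hM.mulVec_eigenvectorBasis i) ⟨n, hn⟩
    simp only [Matrix.mulVec, dotProduct, Pi.smul_apply, smul_eq_mul] at this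
    simp only [dif_pos hn]
    rw [← this, ← Finset.sum_coe_sort I]
    refine Finset.sum_congr rfl fun m _ => ?_
    rw [dif_pos m.2]
    rfl
  · have h1 := (Matrix.mem_unitaryGroup_iff.1 hM.eigenvectorUnitary.2)
    have h2 := congrFun (congrFun h1 ⟨n, hn⟩) ⟨m, hm⟩
    simp only [Matrix.mul_apply, Matrix.star_apply, Matrix.IsHermitian.eigenvectorUnitary_apply,
      star_trivial, Matrix.one_apply, Subtype.mk.injEq] at h2
    simp only [dif_pos hn, dif_pos hm]
    exact h2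

variable {a b : ℤ → ℝ} {r r' c : ℝ}

/-- potential on `[-N,N]` with the boundary condition that makes `a` a null vector -/
noncomputable def al' (a : ℤ → ℝ) (N : ℕ) (n : ℤ) : ℝ :=
  ((if n + 1 ∈ Icc (-(N : ℤ)) N then a (n + 1) else 0) +
    (if n - 1 ∈ Icc (-(N : ℤ)) N then a (n - 1) else 0)) / a n

noncomputable def Jk (a : ℤ → ℝ) (N : ℕ) (n m : ℤ) : ℝ :=
  (if m = n + 1 then 1 else 0) + (if m = n - 1 then 1 else 0) - if m = n then al' a N n else 0

theorem Jk_symm (a : ℤ → ℝ) (N : ℕ) (n m : ℤ) : Jk a N n m = Jk a N m n := by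
  unfold Jk
  have e1 : (m = n + 1) = (n = m - 1) := propext ⟨fun h => by omega, fun h => by omega⟩
  have e2 : (m = n - 1) = (n = m + 1) := propext ⟨fun h => by omega, fun h => by omega⟩
  simp only [e1, e2]
  by_cases h : m = n
  · subst h; simp
  · rw [if_neg h, if_neg (Ne.symm h)]; ring

theorem Jk_sum (a : ℤ → ℝ) (N : ℕ) (f : ℤ → ℂ) {n : ℤ} (hn : n ∈ Icc (-(N : ℤ)) N) :
    ∑ m ∈ Icc (-(N : ℤ)) N, (Jk a N n m : ℂ) * f m =
      (if n + 1 ∈ Icc (-(N : ℤ)) N then f (n + 1) else 0) +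
        (if n - 1 ∈ Icc (-(N : ℤ)) N then f (n - 1) else 0) - al' a N n * f n := by
  simp only [Jk, apply_ite ((↑) : ℝ → ℂ), Complex.ofReal_sub, Complex.ofReal_add, sub_mul, add_mul,
    ite_mul, Complex.ofReal_one, Complex.ofReal_zero, one_mul, zero_mul, Finset.sum_sub_distrib,
    Finset.sum_add_distrib, Finset.sum_ite_eq', if_pos hn]

theorem Jk_null (D : Dec a r c) (N : ℕ) {n : ℤ} (hn : n ∈ Icc (-(N : ℤ)) N) :
    ∑ m ∈ Icc (-(N : ℤ)) N, (Jk a N n m : ℂ) * (a m : ℂ) = 0 := by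
  rw [Jk_sum a N (fun m => (a m : ℂ)) hn]
  have h : (a n : ℂ) ≠ 0 := by exact_mod_cast D.ne n
  unfold al'
  push_cast [apply_ite ((↑) : ℝ → ℂ)]
  field_simp
  ring

/-- spectral gap at `0` -/
theorem gap (D : Dec a r c) (N : ℕ) (hN : 1 ≤ N) (v : ℤ → ℝ) (lam : ℝ)
    (hv : ∀ n ∈ Icc (-(N : ℤ)) N, ∑ m ∈ Icc (-(N : ℤ)) N, Jk a N n m * v m = lam * v n) :
    c ^ 2 / (4 * N ^ 3) ≤ |lam| ∨ ∀ n ∈ Icc (-(N : ℤ)) N, lam * v n = 0 ∧ v n = v 0 * a n := by
  have hc := D.c_pos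
  have hN' : (1 : ℝ) ≤ N := by exact_mod_cast hN
  have h0 : (0 : ℤ) ∈ Icc (-(N : ℤ)) N := by simp
  obtain ⟨n0, hn0, hmax⟩ := Finset.exists_max_image (Icc (-(N : ℤ)) N) (fun n => |v n|) ⟨0, h0⟩
  set ψ : ℤ → ℂ := fun n => if n ∈ Icc (-(N : ℤ)) N then (v n : ℂ) else
    if 0 < n then (a n : ℂ) / a N * v N else (a n : ℂ) / a N * v (-N) with hψ
  have haN : (a N : ℂ) ≠ 0 := by exact_mod_cast D.ne N
  have hin : ∀ n ∈ Icc (-(N : ℤ)) N, ψ n = v n := fun n hn => by simp only [hψ, if_pos hn]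
  have hup : ψ (N + 1) = (a (N + 1) : ℂ) / a N * v N := by
    simp only [hψ]
    rw [if_neg (by simp), if_pos (by omega)]
  have hdn : ψ (-(N + 1)) = (a (N + 1) : ℂ) / a N * v (-N) := by
    simp only [hψ]
    rw [if_neg (by simp), if_neg (by omega), D.even]
  have heq : ∀ n ∈ Icc (-(N : ℤ)) N, ψ (n + 1) + ψ (n - 1) - al a n * ψ n = lam * v n := by
    intro n hn
    have h1 : ∑ m ∈ Icc (-(N : ℤ)) N, (Jk a N n m : ℂ) * (v m : ℂ) = lam * v n := by
      exact_mod_cast hv n hn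
    rw [Jk_sum a N (fun m => (v m : ℂ)) hn] at h1
    have han : (a n : ℂ) ≠ 0 := by exact_mod_cast D.ne n
    rw [← h1, hin n hn]
    unfold al al'
    have hn' := Finset.mem_Icc.1 hn
    by_cases e1 : n + 1 ∈ Icc (-(N : ℤ)) N <;> by_cases e2 : n - 1 ∈ Icc (-(N : ℤ)) N
    · rw [hin _ e1, hin _ e2]; simp only [if_pos e1, if_pos e2]
    · have : n = -N := by rw [Finset.mem_Icc] at e2; omega
      subst this
      rw [hin _ e1, show -(N : ℤ) - 1 = -(N + 1) by ring, hdn]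
      rw [show -(N : ℤ) - 1 = -(N + 1) by ring] at e2
      simp only [if_pos e1, if_neg e2, D.even]
      push_cast; field_simp; ring
    · have : n = N := by rw [Finset.mem_Icc] at e1; omega
      subst this
      rw [hin _ e2, hup]
      simp only [if_neg e1, if_pos e2]
      push_cast; field_simp; ring
    · rw [Finset.mem_Icc] at e1 e2; omega
  have hw := wr D ψ N (|lam| * |v n0|) (by positivity) (fun n hn => by
      have hn' : n ∈ Icc (-(N : ℤ)) N := Finset.mem_Icc.2 (abs_le.1 hn)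
      rw [heq n hn', norm_mul, Complex.norm_real, Complex.norm_real]
      exact mul_le_mul_of_nonneg_left (hmax n hn') (abs_nonneg _))
    (by rw [hup, hin N (by simp)]; field_simp)
    (by rw [hdn, hin (-N) (by simp)]; field_simp)
  have hw' : ∀ n ∈ Icc (-(N : ℤ)) N, |v n - v 0 * a n| ≤ N ^ 2 * (|lam| * |v n0|) / c ^ 2 := by
    intro n hn
    have := hw n (abs_le.2 (Finset.mem_Icc.1 hn))
    rw [hin n hn, hin 0 h0] at this
    rw [← Real.norm_eq_abs, ← Complex.norm_real]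
    push_cast
    exact this
  by_cases hl : lam = 0
  · refine Or.inr fun n hn => ⟨by simp [hl], ?_⟩
    have := hw' n hn
    simp only [hl, abs_zero, zero_mul, mul_zero, zero_div, abs_nonpos_iff] at this
    linarith
  by_cases hm : v n0 = 0
  · refine Or.inr fun n hn => ?_
    have e : ∀ n ∈ Icc (-(N : ℤ)) N, v n = 0 := fun n hn => by
      have := hmax n hn
      simpa [hm] using this
    simp [e n hn, e 0 h0]
  left
  have horth : ∑ n ∈ Icc (-(N : ℤ)) N, a n * v n = 0 := by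
    have h1 : lam * ∑ n ∈ Icc (-(N : ℤ)) N, a n * v n = 0 := by
      rw [Finset.mul_sum]
      have : ∀ n ∈ Icc (-(N : ℤ)) N, lam * (a n * v n) =
          ∑ m ∈ Icc (-(N : ℤ)) N, Jk a N m n * a n * v m := fun n hn => by
        rw [mul_left_comm, ← hv n hn, Finset.mul_sum]
        exact Finset.sum_congr rfl fun m _ => by rw [Jk_symm]; ring
      rw [Finset.sum_congr rfl this, Finset.sum_comm]
      refine Finset.sum_eq_zero fun m hm => ?_
      rw [← Finset.sum_mul]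
      have : ∑ n ∈ Icc (-(N : ℤ)) N, Jk a N m n * a n = 0 := by exact_mod_cast Jk_null D N hm
      rw [this, zero_mul]
    exact (mul_eq_zero.1 h1).resolve_left hl
  set X := N ^ 2 * (|lam| * |v n0|) / c ^ 2 with hX
  have hX0 : 0 ≤ X := by positivity
  have h1 : v 0 * ∑ n ∈ Icc (-(N : ℤ)) N, a n ^ 2 =
      -∑ n ∈ Icc (-(N : ℤ)) N, a n * (v n - v 0 * a n) := by
    simp only [mul_sub, Finset.sum_sub_distrib, horth, Finset.mul_sum]
    rw [zero_sub, neg_neg]
    exact Finset.sum_congr rfl fun n _ => by ring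
  have h2 : 1 ≤ ∑ n ∈ Icc (-(N : ℤ)) N, a n ^ 2 := by
    have := Finset.single_le_sum (f := fun n => a n ^ 2) (fun n _ => sq_nonneg _) h0
    simpa [D.zero] using this
  have h3 : |∑ n ∈ Icc (-(N : ℤ)) N, a n * (v n - v 0 * a n)| ≤ (2 * N + 1) * X := by
    refine (Finset.abs_sum_le_sum_abs _ _).trans ?_
    refine (Finset.sum_le_card_nsmul _ _ X fun n hn => ?_).trans ?_
    · rw [abs_mul]
      exact (mul_le_mul (D.le_one n) (hw' n hn) (abs_nonneg _) zero_le_one).trans (by simp)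
    · rw [Int.card_Icc, nsmul_eq_mul, show (N : ℤ) + 1 - -N = ((2 * N + 1 : ℕ) : ℤ) by omega,
        Int.toNat_natCast]
      push_cast; rfl
  have h4 : |v 0| ≤ (2 * N + 1) * X := by
    have := congrArg abs h1
    rw [abs_mul, abs_neg, abs_of_pos (by linarith : 0 < ∑ n ∈ Icc (-(N : ℤ)) N, a n ^ 2)] at this
    nlinarith [abs_nonneg (v 0)]
  have h5 : |v n0| ≤ (2 * N + 2) * X := by
    have e1 := hw' n0 hn0
    have e2 : |v n0| ≤ |v n0 - v 0 * a n0| + |v 0 * a n0| := by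
      simpa using abs_add_le (v n0 - v 0 * a n0) (v 0 * a n0)
    rw [abs_mul] at e2
    have e3 := mul_le_mul_of_nonneg_left (D.le_one n0) (abs_nonneg (v 0))
    linarith
  have h6 : 0 < |v n0| := abs_pos.2 hm
  have h7 : |v n0| * c ^ 2 ≤ |v n0| * (|lam| * (4 * N ^ 3)) := by
    have e1 : (2 * N + 2 : ℝ) * X ≤ 4 * N * X := by nlinarith
    have e2 : 4 * N * X * c ^ 2 = |v n0| * (|lam| * (4 * N ^ 3)) := by rw [hX]; field_simp
    nlinarith [sq_nonneg c]
  rw [div_le_iff₀ (by positivity)]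
  exact le_of_mul_le_mul_left h7 h6

/-- **OBS** -/
theorem obs (Da : Dec a r c) (Db : Dec b r' 1) (y s : ℝ) (hy : 1 ≤ |y|) (hs0 : 0 < s) (hs1 : s ≤ 1)
    (hs : s ≤ |y - y⁻¹|) (hβ : ∀ m, m ≠ 0 → al b m = y + y⁻¹) (hβ0 : al b 0 = 2 * y⁻¹)
    (φ : ℤ → ℤ → ℂ) (R : ℕ) (G : ℝ) (hG0 : 0 ≤ G)
    (hsupp : ∀ n m : ℤ, (R : ℤ) < |n| ∨ (R : ℤ) < |m| → φ n m = 0)
    (hG : ∀ n m, ‖φ (n + 1) m + φ (n - 1) m + φ n (m + 1) + φ n (m - 1) -
      (al a n + al b m : ℝ) * φ n m‖ ≤ G) (n m : ℤ) (hn : |n| ≤ R + 1) (hm : |m| ≤ R + 1) :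
    ‖φ n m - φ 0 0 * (a n * b m : ℝ)‖ ≤ 288 * (R + 1) ^ 7 * G / (s * c ^ 2) := by
  classical
  have hc := Da.c_pos
  have hc1 := Da.c_le
  set N := R + 1 with hN
  have hNR : (N : ℝ) = R + 1 := by rw [hN]; push_cast; rfl
  have hNZ : (N : ℤ) = R + 1 := by rw [hN]; push_cast; rfl
  have hN1 : (1 : ℝ) ≤ N := by exact_mod_cast (by omega : 1 ≤ N)
  set I := Icc (-(N : ℤ)) N with hI
  have hcard : (I.card : ℝ) = 2 * N + 1 := by
    rw [hI, Int.card_Icc, show (N : ℤ) + 1 - -N = ((2 * N + 1 : ℕ) : ℤ) by omega,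
      Int.toNat_natCast]
    push_cast; rfl
  obtain ⟨v, lam, hv, hcomp⟩ := exists_eig I (Jk a N) (Jk_symm a N)
  have hv1 : ∀ i, ∀ n ∈ I, |v i n| ≤ 1 := fun i n hn => by
    have h1 := hcomp n hn n hn
    rw [if_pos rfl] at h1
    have h2 := Finset.single_le_sum (f := fun i => v i n * v i n)
      (fun i _ => mul_self_nonneg _) (Finset.mem_univ i)
    rw [h1] at h2
    exact abs_le_one_iff_mul_self_le_one.2 h2
  set P : I → ℤ → ℂ := fun i m => ∑ n ∈ I, (v i n : ℂ) * φ n m with hP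
  have hrec : ∀ n ∈ I, ∀ m, φ n m = ∑ i, (v i n : ℂ) * P i m := by
    intro n hn m
    simp only [hP, Finset.mul_sum]
    rw [Finset.sum_comm]
    have : ∀ k ∈ I, ∑ i, (v i n : ℂ) * (v i k * φ k m) = if n = k then φ k m else 0 := by
      intro k hk
      have h1 : ∑ i, (v i n : ℂ) * v i k = if n = k then 1 else 0 := by
        have := hcomp n hn k hk
        split_ifs at this ⊢ <;> exact_mod_cast this
      simp only [← mul_assoc]
      rw [← Finset.sum_mul, h1, ite_mul, one_mul, zero_mul]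
    rw [Finset.sum_congr rfl this, Finset.sum_ite_eq, if_pos hn]
  have hJφ : ∀ n ∈ I, ∀ m, ∑ k ∈ I, (Jk a N n k : ℂ) * φ k m =
      φ (n + 1) m + φ (n - 1) m - al a n * φ n m := by
    intro n hn m
    rw [hI, Jk_sum a N (fun k => φ k m) hn]
    have hn' := Finset.mem_Icc.1 hn
    have z : ∀ k : ℤ, (N : ℤ) ≤ |k| → φ k m = 0 := fun k hk => hsupp k m (Or.inl (by omega))
    by_cases e1 : n + 1 ∈ Icc (-(N : ℤ)) N <;> by_cases e2 : n - 1 ∈ Icc (-(N : ℤ)) N
    · simp only [al, al', if_pos e1, if_pos e2]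
    · rw [if_pos e1, if_neg e2]
      rw [Finset.mem_Icc] at e2
      rw [z n (le_abs.2 (by omega)), z (n - 1) (le_abs.2 (by omega))]; simp
    · rw [if_neg e1, if_pos e2]
      rw [Finset.mem_Icc] at e1
      rw [z n (le_abs.2 (by omega)), z (n + 1) (le_abs.2 (by omega))]; simp
    · rw [Finset.mem_Icc] at e1 e2; omega
  have hPeq : ∀ i m, ‖P i (m + 1) + P i (m - 1) - al b m * P i m + lam i * P i m‖ ≤
      (2 * N + 1) * G := by
    intro i m
    have h1 : (lam i : ℂ) * P i m =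
        ∑ n ∈ I, (v i n : ℂ) * (φ (n + 1) m + φ (n - 1) m - al a n * φ n m) := by
      have h0 : ∑ n ∈ I, (v i n : ℂ) * (φ (n + 1) m + φ (n - 1) m - al a n * φ n m) =
          ∑ n ∈ I, (v i n : ℂ) * ∑ k ∈ I, (Jk a N n k : ℂ) * φ k m :=
        Finset.sum_congr rfl fun n hn => by rw [hJφ n hn m]
      rw [h0]
      simp only [hP, Finset.mul_sum]
      rw [Finset.sum_comm]
      refine Finset.sum_congr rfl fun k hk => ?_
      have : ∑ n ∈ I, (Jk a N k n : ℂ) * v i n = lam i * v i k := by exact_mod_cast hv i k hk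
      rw [← mul_assoc, ← this, Finset.sum_mul]
      exact Finset.sum_congr rfl fun n _ => by rw [Jk_symm a N k n]; ring
    have h2 : P i (m + 1) + P i (m - 1) - al b m * P i m + lam i * P i m =
        ∑ n ∈ I, (v i n : ℂ) * (φ (n + 1) m + φ (n - 1) m + φ n (m + 1) + φ n (m - 1) -
          (al a n + al b m : ℝ) * φ n m) := by
      rw [h1]
      simp only [hP, Finset.mul_sum, ← Finset.sum_add_distrib, ← Finset.sum_sub_distrib]
      exact Finset.sum_congr rfl fun n _ => by push_cast; ring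
    rw [h2, ← hcard]
    refine (norm_sum_le _ _).trans ((Finset.sum_le_card_nsmul _ _ G fun n hn => ?_).trans ?_)
    · rw [norm_mul, Complex.norm_real, Real.norm_eq_abs]
      exact (mul_le_mul (hv1 i n hn) (hG n m) (norm_nonneg _) zero_le_one).trans (by simp)
    · rw [nsmul_eq_mul]
  have hPs : ∀ i (m : ℤ), (R : ℤ) < |m| → P i m = 0 := fun i m hm =>
    Finset.sum_eq_zero fun n _ => by rw [hsupp n m (Or.inr hm), mul_zero]
  set g := s * c ^ 2 / (4 * N ^ 3) with hg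
  have hN3 : (1 : ℝ) ≤ 4 * N ^ 3 := by nlinarith [one_le_pow₀ hN1 (n := 3)]
  have hc2 : c ^ 2 ≤ 1 := pow_le_one₀ hc.le hc1
  have hg0 : 0 < g := by positivity
  have hgs : g ≤ s := by
    rw [hg, div_le_iff₀ (by positivity)]; nlinarith
  have hgc : g ≤ c ^ 2 / (4 * N ^ 3) := by
    rw [hg]; gcongr; nlinarith [sq_nonneg c]
  set Y := 4 * (N : ℝ) ^ 2 * ((2 * N + 1) * G) / g with hY
  have hY0 : 0 ≤ Y := by positivity
  have key : ∀ i, ∃ κ : ℂ, ∀ n ∈ I, ∀ m : ℤ, |m| ≤ N →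
      ‖(v i n : ℂ) * P i m - κ * (a n * b m : ℝ)‖ ≤ Y := by
    intro i
    rcases gap Da N (by omega) (v i) (lam i) (hv i) with h | h
    · refine ⟨0, fun n hn m _ => ?_⟩
      have := scal y (lam i) g hy hg0 (hgs.trans hs1) (hgc.trans h) (hgs.trans hs) (al b) hβ hβ0
        (P i) R _ (by positivity) (hPs i) (hPeq i) m
      rw [zero_mul, sub_zero, norm_mul, Complex.norm_real, Real.norm_eq_abs, hY, hNR]
      rw [hNR] at this
      exact (mul_le_mul (hv1 i n hn) this (norm_nonneg _) zero_le_one).trans (by simp)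
    · refine ⟨v i 0 * P i 0, fun n hn m hm => ?_⟩
      have hl : ∀ m, (lam i : ℂ) * P i m = 0 := fun m => by
        simp only [hP, Finset.mul_sum]
        refine Finset.sum_eq_zero fun k hk => ?_
        have : (lam i : ℂ) * v i k = 0 := by exact_mod_cast (h k hk).1
        rw [← mul_assoc, this, zero_mul]
      have hw := wr Db (P i) N ((2 * N + 1) * G) (by positivity) (fun m _ => by
          have := hPeq i m
          rwa [hl m, add_zero] at this)
        (by rw [hPs i N (lt_abs.2 (by omega)), hPs i (N + 1) (lt_abs.2 (by omega))]; simp)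
        (by rw [hPs i (-N) (lt_abs.2 (by omega)), hPs i (-(N + 1)) (lt_abs.2 (by omega))]; simp)
        m hm
      have e : (v i n : ℂ) * P i m - v i 0 * P i 0 * (a n * b m : ℝ) =
          v i n * (P i m - P i 0 * b m) := by
        have : (v i n : ℂ) = v i 0 * a n := by exact_mod_cast (h n hn).2
        rw [this]; push_cast; ring
      rw [e, norm_mul, Complex.norm_real, Real.norm_eq_abs]
      refine (mul_le_mul (hv1 i n hn) hw (norm_nonneg _) zero_le_one).trans ?_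
      rw [one_mul, one_pow, div_one, hY, le_div_iff₀ hg0]
      have : 0 ≤ (N : ℝ) ^ 2 * ((2 * N + 1) * G) := by positivity
      nlinarith
  choose κ hκ using key
  have main : ∀ n ∈ I, ∀ m : ℤ, |m| ≤ N →
      ‖φ n m - (∑ i, κ i) * (a n * b m : ℝ)‖ ≤ (2 * N + 1) * Y := by
    intro n hn m hm
    rw [hrec n hn m, Finset.sum_mul, ← Finset.sum_sub_distrib, ← hcard]
    refine (norm_sum_le _ _).trans ((Finset.sum_le_card_nsmul _ _ Y fun i _ =>
      hκ i n hn m hm).trans ?_)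
    simp
  have m0 := main 0 (by simp [hI]) 0 (by simp)
  have m1 := main n (Finset.mem_Icc.2 (abs_le.1 (by rw [hNZ]; exact hn))) m (by rw [hNZ]; exact hm)
  rw [Da.zero, Db.zero, mul_one, Complex.ofReal_one, mul_one] at m0
  have e : φ n m - φ 0 0 * (a n * b m : ℝ) = (φ n m - (∑ i, κ i) * (a n * b m : ℝ)) -
      (φ 0 0 - ∑ i, κ i) * (a n * b m : ℝ) := by ring
  rw [e]
  refine (norm_sub_le _ _).trans ?_
  rw [norm_mul, Complex.norm_real, Real.norm_eq_abs, abs_mul]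
  have e1 : |a n| * |b m| ≤ 1 :=
    (mul_le_mul (Da.le_one n) (Db.le_one m) (abs_nonneg _) zero_le_one).trans (by simp)
  have e2 := mul_le_mul m0 e1 (by positivity) (by positivity)
  have e3 : (2 * N + 1) * Y = 16 * N ^ 5 * (2 * N + 1) ^ 2 * (G / (s * c ^ 2)) := by
    rw [hY, hg]; field_simp; ring
  have e4 : (2 * N + 1 : ℝ) ^ 2 ≤ 9 * N ^ 2 := by nlinarith
  have e5 : 16 * (N : ℝ) ^ 5 * (2 * N + 1) ^ 2 * (G / (s * c ^ 2)) ≤
      16 * N ^ 5 * (9 * N ^ 2) * (G / (s * c ^ 2)) := by gcongr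
  rw [← hNR]
  have e6 : 288 * (N : ℝ) ^ 7 * G / (s * c ^ 2) =
      2 * (16 * N ^ 5 * (9 * N ^ 2) * (G / (s * c ^ 2))) := by ring
  rw [e6]
  linarith

end Crest.Agent.N334.Md
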